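import Vale.Agent.P127.MathlibUsed

/-!
# P127: tubes and the Kakeya maximal function
-/

namespace Vale.Agent.P127

open MeasureTheory

/-- The tube `T_δ(a,e)`: all `a + t e + u` with `|t| ≤ 1/2`, `u ⟂ e` and `‖u‖ ≤ δ`. -/
def tube {n : ℕ} (δ : ℝ) (a e : EuclideanSpace ℝ (Fin n)) : Set (EuclideanSpace ℝ (Fin n)) :=
  {x | ∃ (t : ℝ) (u : EuclideanSpace ℝ (Fin n)),
    |t| ≤ 1 / 2 ∧ inner ℝ u e = 0 ∧ ‖u‖ ≤ δ ∧ x = a + t • e + u}

/-- The Kakeya maximal function `K_δ f(e)`, the supremum over `a` of the average of `f` over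
`T_δ(a,e)`. -/
noncomputable def kakeyaMax {n : ℕ} (δ : ℝ) (f : EuclideanSpace ℝ (Fin n) → ENNReal)
    (e : EuclideanSpace ℝ (Fin n)) : ENNReal :=
  ⨆ a, (∫⁻ x in tube δ a e, f x) / volume (tube δ a e)

/-- The surface measure of the unit sphere `S^{n-1}`, as a measure on `ℝ^n`. -/
noncomputable def surf (n : ℕ) : Measure (EuclideanSpace ℝ (Fin n)) :=
  (volume : Measure (EuclideanSpace ℝ (Fin n))).toSphere.map Subtype.val

end Vale.Agent.P127
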