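import Mathlib.Algebra.Order.Archimedean.Real.Hom
import Mathlib.Algebra.Order.Ring.Star
import Mathlib.Algebra.Order.Star.Real
import Mathlib.Computability.Reduce
import Mathlib.Data.Int.Star
import Mathlib.MeasureTheory.Constructions.HaarToSphere
import Mathlib.MeasureTheory.Function.Floor
import Mathlib.MeasureTheory.Measure.Haar.InnerProductSpace
import Mathlib.MeasureTheory.Measure.SubFinite
import Mathlib.MeasureTheory.Order.Group.Lattice
import Mathlib.Order.CompletePartialOrder
import Mathlib.Order.SuccPred.IntervalSucc
import Mathlib.Tactic
import Mathlib.Topology.MetricSpace.HausdorffDimension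

/-! The part of Mathlib that the development of this folder uses. -/
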