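import Mathlib

/-!
# P127: sticky Kakeya sets, definitions

Minkowski and packing dimension, the space of affine lines, sticky Kakeya sets.
-/

namespace Vale.Agent.P127.St

open Filter Topology MeasureTheory

section dims

variable {X : Type*} [PseudoEMetricSpace X]

/-- `N_δ(S)`: the smallest number of closed balls of radius `δ` which cover `S`. -/
noncomputable def cov (δ : ℝ) (S : Set X) : ENNReal :=
  (Metric.externalCoveringNumber δ.toNNReal S : ENNReal)

/-- The upper Minkowski dimension: the limit superior of `log N_δ(S) / log (1/δ)` as `δ → 0+`. -/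
noncomputable def upperMinkowskiDim (S : Set X) : EReal :=
  limsup (fun δ : ℝ => ENNReal.log (cov δ S) / ((Real.log (1 / δ) : ℝ) : EReal)) (𝓝[>] 0)

/-- The packing dimension (equal to the modified upper Minkowski dimension): the infimum, over the
covers of `S` by countably many sets `T i`, of the supremum of the upper Minkowski dimensions of
the sets `T i`. -/
noncomputable def packingDim (S : Set X) : EReal :=
  ⨅ (T : ℕ → Set X) (_ : S ⊆ ⋃ i, T i), ⨆ i, upperMinkowskiDim (T i)

end dims

variable {E : Type*} [NormedAddCommGroup E] [InnerProductSpace ℝ E]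

/-- The line `a + ℝ e` as a point of the manifold of affine lines: the orthogonal projection onto
its direction `ℝ e`, and the point of the line nearest to the origin. The standard distance of two
lines is the distance of these pairs. -/
noncomputable def toLine (a e : E) : (E →L[ℝ] E) × E :=
  ((Submodule.span ℝ {e}).starProjection, a - (Submodule.span ℝ {e}).starProjection a)

/-- The set of the lines `a e + ℝ e`, `e ∈ D`, in the manifold of affine lines. -/
noncomputable def lines (D : Set E) (a : E → E) : Set ((E →L[ℝ] E) × E) :=
  (fun e => toLine (a e) e) '' D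

/-- A sticky Kakeya set (`n` is the dimension of `E`): for every unit vector `e` it contains the
unit segment `{a e + t e : 0 ≤ t ≤ 1}`, and the lines `a e + ℝ e` form a set of packing dimension
(at most) `n - 1`. -/
def IsStickyKakeya (n : ℕ) (K : Set E) : Prop :=
  ∃ a : E → E, (∀ e ∈ Metric.sphere (0 : E) 1, ∀ t ∈ Set.Icc (0 : ℝ) 1, a e + t • e ∈ K) ∧
    packingDim (lines (Metric.sphere (0 : E) 1) a) ≤ (((n : ℝ) - 1 : ℝ) : EReal)

/-- `K` contains, for every `e` in a set `D` of unit vectors of positive outer surface measure
(`μ` is Lebesgue measure), a segment of positive length of a line `a e + ℝ e`, and these lines form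
a set of packing dimension at most `d`. -/
def HasSegments [MeasurableSpace E] (μ : Measure E) (d : ℝ) (K : Set E) : Prop :=
  ∃ (D : Set E) (a : E → E), D ⊆ Metric.sphere 0 1 ∧ μ.toSphere (Subtype.val ⁻¹' D) ≠ 0 ∧
    (∀ e ∈ D, ∃ r : ℝ, 0 < r ∧ ∀ t ∈ Set.Icc (0 : ℝ) r, a e + t • e ∈ K) ∧
    packingDim (lines D a) ≤ (d : EReal)

end Vale.Agent.P127.St
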