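import Mathlib

/-!
# P127: interface between the finite (entropy) part and the Hausdorff dimension part

`KakeyaCore β m` is a purely finite statement about families of discretised lines with shadings
`E l` of density at least `lam`; `m + 1` is the dimension of the ambient space.
-/

namespace Vale.Agent.P127

/-- A Kakeya set: it contains a unit segment in every direction. -/
def IsKakeya (n : ℕ) (K : Set (EuclideanSpace ℝ (Fin n))) : Prop :=
  ∀ e : EuclideanSpace ℝ (Fin n), ‖e‖ = 1 →
    ∃ a : EuclideanSpace ℝ (Fin n), ∀ t ∈ Set.Icc (0 : ℝ) 1, a + t • e ∈ K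

/-- Finite core statement: if the lines `i ↦ X l + (i/N) V l` (in units of the scale, heights
`i < N`), with separated slopes, have shadings `E l` of density `≥ lam` and all their cells at
heights `i ∈ E l` lie in `S i`, then `card Λ ≤ C_lam * (average of card (S i) / lam) ^ β`. -/
def KakeyaCore (β : ℝ) (m : ℕ) : Prop :=
  ∀ B : ℝ, 1 ≤ B → ∃ C : ℝ, 0 ≤ C ∧
    ∀ (N : ℕ), 1 ≤ N → ∀ (Λ : Type) [Fintype Λ] [Nonempty Λ] (X V : Λ → Fin m → ℝ),
      (∀ l c, |X l c| ≤ B * N) → (∀ l c, |V l c| ≤ B * N) →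
      Function.Injective (fun l => fun c => ⌊V l c⌋) →
      ∀ (E : Λ → Finset ℕ), (∀ l, E l ⊆ Finset.range N) →
      ∀ (lam : ℝ), 0 < lam → lam ≤ 1 → (∀ l, lam * N ≤ ((E l).card : ℝ)) →
      ∀ (S : ℕ → Finset (Fin m → ℤ)),
      (∀ l, ∀ i ∈ E l, (fun c => ⌊X l c + ((i : ℝ) / N) * V l c⌋) ∈ S i) →
      Real.log (Fintype.card Λ) ≤
        β * Real.log ((∑ i ∈ Finset.range N, ((S i).card : ℝ)) / (lam * N))
          + C * (1 + Real.log (1 / lam))

end Vale.Agent.P127
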