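import Vale.Agent.P127.Core

/-!
# P127: covers of sets of small Hausdorff dimension
-/

namespace Vale.Agent.P127

open MeasureTheory MeasureTheory.Measure Finset

lemma geom_quarter (F : Finset ℕ) : ∑ i ∈ F, ((1 : ℝ) / 4) ^ (i + 1) ≤ 1 / 2 := by
  have h1 : Summable fun i : ℕ => ((1 : ℝ) / 4) ^ (i + 1) := by
    have := (summable_geometric_of_lt_one (by norm_num : (0 : ℝ) ≤ 1 / 4) (by norm_num)).mul_right
      (1 / 4 : ℝ)
    simpa [pow_succ] using this
  have h2 : ∑' i : ℕ, ((1 : ℝ) / 4) ^ (i + 1) = 1 / 3 := by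
    have h3 : ∑' i : ℕ, ((1 : ℝ) / 4) ^ (i + 1) = (∑' i : ℕ, ((1 : ℝ) / 4) ^ i) * (1 / 4) := by
      rw [← tsum_mul_right]
      simp [pow_succ]
    rw [h3, tsum_geometric_of_lt_one (by norm_num) (by norm_num)]
    norm_num
  have h3 := h1.sum_le_tsum F (fun i _ => by positivity)
  rw [h2] at h3
  linarith

theorem exists_cover {n : ℕ} {K : Set (EuclideanSpace ℝ (Fin n))} {s : NNReal}
    (hs : dimH K < s) {r : ℝ} (hr : 0 < r) :
    ∃ (x : ℕ → EuclideanSpace ℝ (Fin n)) (ρ : ℕ → ℝ), (∀ i, 0 < ρ i) ∧ (∀ i, ρ i ≤ r) ∧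
      K ⊆ ⋃ i, Metric.closedBall (x i) (ρ i) ∧ ∀ F : Finset ℕ, ∑ i ∈ F, ρ i ^ (s : ℝ) ≤ 1 := by
  classical
  borelize (EuclideanSpace ℝ (Fin n))
  have hs0 : (0 : ℝ) < s := by
    have : (0 : ENNReal) < s := lt_of_le_of_lt zero_le hs
    exact_mod_cast this
  have h0 : μH[(s : ℝ)] K = 0 := hausdorffMeasure_of_dimH_lt hs
  have hr' : (0 : ENNReal) < ENNReal.ofReal r := ENNReal.ofReal_pos.2 hr
  have h1 : (⨅ (t : ℕ → Set (EuclideanSpace ℝ (Fin n))) (_ : K ⊆ ⋃ i, t i)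
      (_ : ∀ i, Metric.ediam (t i) ≤ ENNReal.ofReal r),
      ∑' i, ⨆ _ : (t i).Nonempty, Metric.ediam (t i) ^ (s : ℝ)) ≤ μH[(s : ℝ)] K := by
    rw [hausdorffMeasure_apply]
    exact le_iSup₂ (f := fun (r : ENNReal) (_ : 0 < r) =>
      ⨅ (t : ℕ → Set (EuclideanSpace ℝ (Fin n))) (_ : K ⊆ ⋃ i, t i)
      (_ : ∀ i, Metric.ediam (t i) ≤ r),
      ∑' i, ⨆ _ : (t i).Nonempty, Metric.ediam (t i) ^ (s : ℝ)) (ENNReal.ofReal r) hr'
  have h2 : (⨅ (t : ℕ → Set (EuclideanSpace ℝ (Fin n))) (_ : K ⊆ ⋃ i, t i)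
      (_ : ∀ i, Metric.ediam (t i) ≤ ENNReal.ofReal r),
      ∑' i, ⨆ _ : (t i).Nonempty, Metric.ediam (t i) ^ (s : ℝ)) < 1 / 4 := by
    refine lt_of_le_of_lt (h1.trans h0.le) ?_
    norm_num
  simp only [iInf_lt_iff] at h2
  obtain ⟨t, ht1, ht2, ht3⟩ := h2
  -- radii
  set η : ℕ → ℝ := fun i => min r ((((1 : ℝ) / 4) ^ (i + 1)) ^ (1 / (s : ℝ))) with hη
  have hηpos : ∀ i, 0 < η i := fun i => lt_min hr (by positivity)
  have hηr : ∀ i, η i ≤ r := fun i => min_le_left _ _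
  have hηs : ∀ i, η i ^ (s : ℝ) ≤ ((1 : ℝ) / 4) ^ (i + 1) := by
    intro i
    calc η i ^ (s : ℝ) ≤ ((((1 : ℝ) / 4) ^ (i + 1)) ^ (1 / (s : ℝ))) ^ (s : ℝ) :=
          Real.rpow_le_rpow (hηpos i).le (min_le_right _ _) hs0.le
      _ = ((1 : ℝ) / 4) ^ (i + 1) := by
          rw [← Real.rpow_mul (by positivity), one_div_mul_cancel hs0.ne', Real.rpow_one]
  set d : ℕ → ℝ := fun i => if (t i).Nonempty then (Metric.ediam (t i)).toReal else 0 with hd
  have hd0 : ∀ i, 0 ≤ d i := fun i => by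
    simp only [hd]; split_ifs <;> positivity
  have hfin : ∀ i, Metric.ediam (t i) ≠ ⊤ := fun i =>
    ne_top_of_le_ne_top ENNReal.ofReal_ne_top (ht2 i)
  have hdr : ∀ i, d i ≤ r := fun i => by
    simp only [hd]
    split_ifs
    · exact ENNReal.toReal_le_of_le_ofReal hr.le (ht2 i)
    · exact hr.le
  refine ⟨fun i => if h : (t i).Nonempty then h.some else 0, fun i => max (d i) (η i),
    fun i => lt_max_of_lt_right (hηpos i), fun i => max_le (hdr i) (hηr i), ?_, ?_⟩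
  · intro y hy
    obtain ⟨i, hi⟩ := Set.mem_iUnion.1 (ht1 hy)
    refine Set.mem_iUnion.2 ⟨i, ?_⟩
    have hne : (t i).Nonempty := ⟨y, hi⟩
    rw [Metric.mem_closedBall]
    simp only [dif_pos hne]
    refine le_trans ?_ (le_max_left _ _)
    simp only [hd, if_pos hne]
    rw [dist_edist]
    exact ENNReal.toReal_mono (hfin i) (Metric.edist_le_ediam_of_mem hi hne.some_mem)
  · intro F
    have h3 : ∀ i ∈ F, (max (d i) (η i)) ^ (s : ℝ) ≤ d i ^ (s : ℝ) + ((1 : ℝ) / 4) ^ (i + 1) := by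
      intro i _
      rcases max_choice (d i) (η i) with h | h
      · rw [h]
        have : (0 : ℝ) ≤ ((1 : ℝ) / 4) ^ (i + 1) := by positivity
        linarith
      · rw [h]
        have := hηs i
        have := Real.rpow_nonneg (hd0 i) (s : ℝ)
        linarith
    refine (Finset.sum_le_sum h3).trans ?_
    rw [Finset.sum_add_distrib]
    have h4 := geom_quarter F
    have h5 : ∑ i ∈ F, d i ^ (s : ℝ) ≤ 1 / 4 := by
      have h6 : ∑ i ∈ F, ENNReal.ofReal (d i ^ (s : ℝ)) ≤ 1 / 4 := by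
        refine le_trans ?_ ht3.le
        refine le_trans (Finset.sum_le_sum fun i _ => ?_) (ENNReal.sum_le_tsum F)
        by_cases hne : (t i).Nonempty
        · simp only [hd, if_pos hne]
          refine le_trans ?_ (le_iSup (fun _ : (t i).Nonempty => Metric.ediam (t i) ^ (s : ℝ)) hne)
          rw [← ENNReal.ofReal_rpow_of_nonneg ENNReal.toReal_nonneg hs0.le,
            ENNReal.ofReal_toReal (hfin i)]
        · simp only [hd, if_neg hne]
          rw [Real.zero_rpow hs0.ne']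
          simp
      rw [← ENNReal.ofReal_sum_of_nonneg (fun i _ => Real.rpow_nonneg (hd0 i) _)] at h6
      have h7 : (1 : ENNReal) / 4 = ENNReal.ofReal (1 / 4) := by
        rw [ENNReal.ofReal_div_of_pos (by norm_num)]
        simp
      rw [h7] at h6
      exact (ENNReal.ofReal_le_ofReal_iff (by norm_num)).1 h6
    linarith

end Vale.Agent.P127
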