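import Mathlib

/-!
# P127: finite Shannon entropy

A small library of Shannon entropies of functions on finite probability spaces.
-/

namespace Vale.Agent.P127

open Finset

/-- A finite probability law. -/
structure Law (Ω : Type) [Fintype Ω] where
  w : Ω → ℝ
  nn : ∀ ω, 0 ≤ w ω
  sum_one : ∑ ω, w ω = 1

open Classical in
/-- the finite range of a function -/
noncomputable def img {Ω : Type} [Fintype Ω] {S : Type*} (X : Ω → S) : Finset S := univ.image X

@[simp] lemma mem_img {Ω : Type} [Fintype Ω] {S : Type*} {X : Ω → S} {x : S} :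
    x ∈ img X ↔ ∃ ω, X ω = x := by
  simp [img]

namespace Law

variable {Ω : Type} [Fintype Ω] {S T U : Type*}

open Classical in
/-- probability that `X = x` -/
noncomputable def pr (P : Law Ω) (X : Ω → S) (x : S) : ℝ :=
  ∑ ω with X ω = x, P.w ω

/-- expectation -/
noncomputable def ex (P : Law Ω) (f : Ω → ℝ) : ℝ := ∑ ω, P.w ω * f ω

/-- Shannon entropy of `X` -/
noncomputable def H (P : Law Ω) (X : Ω → S) : ℝ := P.ex fun ω => -Real.log (P.pr X (X ω))

lemma ex_mono (P : Law Ω) {f g : Ω → ℝ} (h : ∀ ω, 0 < P.w ω → f ω ≤ g ω) : P.ex f ≤ P.ex g := by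
  unfold ex
  refine Finset.sum_le_sum fun ω _ => ?_
  rcases (P.nn ω).eq_or_lt with h0 | h0
  · simp [← h0]
  · exact mul_le_mul_of_nonneg_left (h ω h0) h0.le

lemma ex_congr (P : Law Ω) {f g : Ω → ℝ} (h : ∀ ω, 0 < P.w ω → f ω = g ω) : P.ex f = P.ex g :=
  le_antisymm (P.ex_mono fun ω hω => (h ω hω).le) (P.ex_mono fun ω hω => (h ω hω).ge)

lemma ex_add (P : Law Ω) (f g : Ω → ℝ) : P.ex (fun ω => f ω + g ω) = P.ex f + P.ex g := by
  simp [ex, mul_add, Finset.sum_add_distrib]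

lemma ex_sub (P : Law Ω) (f g : Ω → ℝ) : P.ex (fun ω => f ω - g ω) = P.ex f - P.ex g := by
  simp [ex, mul_sub, Finset.sum_sub_distrib]

lemma ex_neg (P : Law Ω) (f : Ω → ℝ) : P.ex (fun ω => - f ω) = - P.ex f := by
  simp [ex]

lemma ex_const_mul (P : Law Ω) (c : ℝ) (f : Ω → ℝ) : P.ex (fun ω => c * f ω) = c * P.ex f := by
  simp only [ex, Finset.mul_sum]
  exact Finset.sum_congr rfl fun ω _ => by ring

lemma ex_const (P : Law Ω) (c : ℝ) : P.ex (fun _ => c) = c := by
  simp [ex, ← Finset.sum_mul, P.sum_one]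

lemma ex_nonneg (P : Law Ω) {f : Ω → ℝ} (h : ∀ ω, 0 < P.w ω → 0 ≤ f ω) : 0 ≤ P.ex f := by
  have := P.ex_mono (f := fun _ => 0) (g := f) h
  rwa [P.ex_const] at this

lemma pr_nonneg (P : Law Ω) (X : Ω → S) (x : S) : 0 ≤ P.pr X x :=
  Finset.sum_nonneg fun ω _ => P.nn ω

lemma pr_le_one (P : Law Ω) (X : Ω → S) (x : S) : P.pr X x ≤ 1 := by
  classical
  unfold pr
  rw [← P.sum_one]
  exact Finset.sum_le_sum_of_subset_of_nonneg (Finset.filter_subset _ _) fun ω _ _ => P.nn ω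

lemma w_le_pr (P : Law Ω) (X : Ω → S) (ω : Ω) : P.w ω ≤ P.pr X (X ω) := by
  classical
  unfold pr
  exact Finset.single_le_sum (f := P.w) (fun ω _ => P.nn ω) (by simp)

lemma pr_pos (P : Law Ω) (X : Ω → S) {ω : Ω} (h : 0 < P.w ω) : 0 < P.pr X (X ω) :=
  h.trans_le (P.w_le_pr X ω)

lemma H_nonneg (P : Law Ω) (X : Ω → S) : 0 ≤ P.H X :=
  P.ex_nonneg fun ω _ => by
    have := Real.log_nonpos (P.pr_nonneg X (X ω)) (P.pr_le_one X (X ω))
    linarith

lemma ex_comp (P : Law Ω) (X : Ω → S) (g : S → ℝ) :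
    P.ex (fun ω => g (X ω)) = ∑ x ∈ img X, P.pr X x * g x := by
  classical
  unfold ex pr
  rw [← Finset.sum_fiberwise_of_maps_to (g := X) (t := img X) (by simp)]
  refine Finset.sum_congr rfl fun x _ => ?_
  rw [Finset.sum_mul]
  refine Finset.sum_congr (by ext; simp) fun ω hω => ?_
  have : X ω = x := by simpa using hω
  simp only [this]

lemma sum_pr_image (P : Law Ω) (X : Ω → S) : ∑ x ∈ img X, P.pr X x = 1 := by
  have := P.ex_comp X (fun _ => 1)
  simpa [P.ex_const] using this.symm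

/-- Gibbs inequality. -/
theorem gibbs (P : Law Ω) (X : Ω → S) (q : S → ℝ) (hq0 : ∀ x, 0 ≤ q x)
    (hq1 : ∑ x ∈ img X, q x ≤ 1) (hpos : ∀ ω, 0 < P.w ω → 0 < q (X ω)) :
    P.H X ≤ P.ex (fun ω => - Real.log (q (X ω))) := by
  have h1 : P.ex (fun ω => Real.log (q (X ω)) - Real.log (P.pr X (X ω))) ≤
      P.ex (fun ω => q (X ω) / P.pr X (X ω) - 1) := by
    refine P.ex_mono fun ω hω => ?_
    rw [← Real.log_div (hpos ω hω).ne' (P.pr_pos X hω).ne']
    exact Real.log_le_sub_one_of_pos (div_pos (hpos ω hω) (P.pr_pos X hω))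
  have h2 : P.ex (fun ω => q (X ω) / P.pr X (X ω) - 1) ≤ 0 := by
    rw [P.ex_sub, P.ex_const, P.ex_comp X (fun x => q x / P.pr X x)]
    have : ∑ x ∈ img X, P.pr X x * (q x / P.pr X x) ≤ ∑ x ∈ img X, q x := by
      refine Finset.sum_le_sum fun x _ => ?_
      rcases (P.pr_nonneg X x).eq_or_lt with h0 | h0
      · simp [← h0, hq0 x]
      · rw [mul_div_cancel₀ _ h0.ne']
    linarith
  rw [P.ex_sub] at h1
  unfold H
  rw [P.ex_neg, P.ex_neg]
  linarith

/-- Conditional Gibbs inequality. -/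
theorem gibbs_cond (P : Law Ω) (X : Ω → S) (Y : Ω → T) (q : S → T → ℝ)
    (hq0 : ∀ x y, 0 ≤ q x y) (hq1 : ∀ y, ∀ F : Finset S, ∑ x ∈ F, q x y ≤ 1)
    (hpos : ∀ ω, 0 < P.w ω → 0 < q (X ω) (Y ω)) :
    P.H (fun ω => (X ω, Y ω)) - P.H Y ≤ P.ex (fun ω => - Real.log (q (X ω) (Y ω))) := by
  classical
  have h := P.gibbs (fun ω => (X ω, Y ω)) (fun z => q z.1 z.2 * P.pr Y z.2)
    (fun z => mul_nonneg (hq0 _ _) (P.pr_nonneg _ _)) ?_
    (fun ω hω => mul_pos (hpos ω hω) (P.pr_pos Y hω))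
  · have h2 : P.ex (fun ω => - Real.log (q (X ω) (Y ω) * P.pr Y (Y ω))) =
        P.ex (fun ω => - Real.log (q (X ω) (Y ω))) + P.H Y := by
      unfold H
      rw [← P.ex_add]
      refine P.ex_congr fun ω hω => ?_
      rw [Real.log_mul (hpos ω hω).ne' (P.pr_pos Y hω).ne']
      ring
    linarith
  · calc ∑ z ∈ img (fun ω => (X ω, Y ω)), q z.1 z.2 * P.pr Y z.2
        ≤ ∑ z ∈ (img X) ×ˢ (img Y), q z.1 z.2 * P.pr Y z.2 := by
          refine Finset.sum_le_sum_of_subset_of_nonneg ?_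
            fun z _ _ => mul_nonneg (hq0 _ _) (P.pr_nonneg _ _)
          intro z hz
          simp only [mem_img, mem_product] at hz ⊢
          obtain ⟨ω, rfl⟩ := hz
          exact ⟨⟨ω, rfl⟩, ⟨ω, rfl⟩⟩
      _ = ∑ y ∈ img Y, (∑ x ∈ img X, q x y) * P.pr Y y := by
          rw [Finset.sum_product_right]
          refine Finset.sum_congr rfl fun y _ => ?_
          rw [Finset.sum_mul]
      _ ≤ ∑ y ∈ img Y, P.pr Y y := by
          refine Finset.sum_le_sum fun y _ => ?_
          have := mul_le_mul_of_nonneg_right (hq1 y (img X)) (P.pr_nonneg Y y)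
          simpa using this
      _ ≤ 1 := (P.sum_pr_image Y).le

/-- entropy depends only on the partition -/
theorem H_congr (P : Law Ω) {X : Ω → S} {Y : Ω → T} (h : ∀ ω ω', X ω = X ω' ↔ Y ω = Y ω') :
    P.H X = P.H Y := by
  unfold H
  refine P.ex_congr fun ω _ => ?_
  have : P.pr X (X ω) = P.pr Y (Y ω) := by
    unfold pr
    refine Finset.sum_congr ?_ fun _ _ => rfl
    ext ω'
    simp [h ω' ω]
  rw [this]

/-- a function of `X` has smaller entropy -/
theorem H_mono (P : Law Ω) {X : Ω → S} {Y : Ω → T} (h : ∀ ω ω', X ω = X ω' → Y ω = Y ω') :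
    P.H Y ≤ P.H X := by
  unfold H
  refine P.ex_mono fun ω hω => ?_
  have : P.pr X (X ω) ≤ P.pr Y (Y ω) := by
    unfold pr
    refine Finset.sum_le_sum_of_subset_of_nonneg ?_ fun _ _ _ => P.nn _
    intro ω'
    simp only [mem_filter, mem_univ, true_and]
    exact h ω' ω
  have := Real.log_le_log (P.pr_pos X hω) this
  linarith

lemma sum_pr_pair_le (P : Law Ω) (X : Ω → S) (Z : Ω → U) (z : U) (F : Finset S) :
    ∑ x ∈ F, P.pr (fun ω => (X ω, Z ω)) (x, z) ≤ P.pr Z z := by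
  classical
  have key : ∀ x, P.pr (fun ω => (X ω, Z ω)) (x, z) =
      ∑ ω ∈ (univ.filter (fun ω => Z ω = z)).filter (fun ω => X ω = x), P.w ω := by
    intro x
    unfold pr
    refine Finset.sum_congr ?_ fun _ _ => rfl
    ext ω
    simp [and_comm]
  simp only [key]
  unfold pr
  calc ∑ x ∈ F, ∑ ω ∈ (univ.filter (fun ω => Z ω = z)).filter (fun ω => X ω = x), P.w ω
    _ = ∑ ω ∈ (univ.filter (fun ω => Z ω = z)).filter (fun ω => X ω ∈ F), P.w ω := by
        rw [← Finset.sum_fiberwise_of_maps_to (g := X) (t := F)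
          (s := (univ.filter (fun ω => Z ω = z)).filter (fun ω => X ω ∈ F))]
        · refine Finset.sum_congr rfl fun x hx => Finset.sum_congr ?_ fun _ _ => rfl
          ext ω
          simp only [mem_filter, mem_univ, true_and]
          constructor
          · rintro ⟨h1, h2⟩
            exact ⟨⟨h1, h2 ▸ hx⟩, h2⟩
          · rintro ⟨⟨h1, _⟩, h2⟩
            exact ⟨h1, h2⟩
        · intro ω hω
          simp only [mem_filter, mem_univ, true_and] at hω
          exact hω.2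
    _ ≤ ∑ ω with Z ω = z, P.w ω := by
        refine Finset.sum_le_sum_of_subset_of_nonneg (Finset.filter_subset _ _) fun _ _ _ => P.nn _

/-- submodularity -/
theorem submod (P : Law Ω) (X : Ω → S) (Y : Ω → T) (Z : Ω → U) :
    P.H (fun ω => (X ω, Y ω, Z ω)) + P.H Z ≤
      P.H (fun ω => (X ω, Z ω)) + P.H (fun ω => (Y ω, Z ω)) := by
  have h := P.gibbs_cond X (fun ω => (Y ω, Z ω))
    (fun x yz => P.pr (fun ω => (X ω, Z ω)) (x, yz.2) / P.pr Z yz.2)
    (fun x yz => div_nonneg (P.pr_nonneg _ _) (P.pr_nonneg _ _)) ?_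
    (fun ω hω => div_pos (P.pr_pos (fun ω => (X ω, Z ω)) hω) (P.pr_pos Z hω))
  · have h2 : P.ex (fun ω => - Real.log (P.pr (fun ω => (X ω, Z ω)) (X ω, Z ω) / P.pr Z (Z ω)))
        = P.H (fun ω => (X ω, Z ω)) - P.H Z := by
      unfold H
      rw [← P.ex_sub]
      refine P.ex_congr fun ω hω => ?_
      rw [Real.log_div (P.pr_pos (fun ω => (X ω, Z ω)) hω).ne' (P.pr_pos Z hω).ne']
      ring
    linarith
  · intro yz F
    rw [← Finset.sum_div]
    exact div_le_one_of_le₀ (P.sum_pr_pair_le X Z yz.2 F) (P.pr_nonneg _ _)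

/-! ### Conditioning -/

open Classical in
/-- the law conditioned on `Z = z` (junk value if the event has probability zero) -/
noncomputable def cond (P : Law Ω) (Z : Ω → U) (z : U) : Law Ω :=
  if hz : 0 < P.pr Z z then
    { w := fun ω => if Z ω = z then P.w ω / P.pr Z z else 0
      nn := fun ω => by
        split_ifs
        · exact div_nonneg (P.nn ω) hz.le
        · exact le_rfl
      sum_one := by
        rw [← Finset.sum_filter, ← Finset.sum_div]
        exact div_self hz.ne' }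
  else P

open Classical in
lemma cond_w (P : Law Ω) (Z : Ω → U) (z : U) (hz : 0 < P.pr Z z) (ω : Ω) :
    (P.cond Z z).w ω = if Z ω = z then P.w ω / P.pr Z z else 0 := by
  simp [cond, hz]

lemma cond_pr (P : Law Ω) (Z : Ω → U) (z : U) (hz : 0 < P.pr Z z) (X : Ω → S) (x : S) :
    (P.cond Z z).pr X x = P.pr (fun ω => (X ω, Z ω)) (x, z) / P.pr Z z := by
  classical
  unfold pr
  simp only [P.cond_w Z z hz]
  rw [← Finset.sum_filter, Finset.filter_filter, Finset.sum_div]
  refine Finset.sum_congr ?_ fun _ _ => rfl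
  ext ω
  simp

/-- conditional entropy is the average of the entropies of the conditioned laws -/
theorem H_cond_eq (P : Law Ω) (X : Ω → S) (Z : Ω → U) :
    P.H (fun ω => (X ω, Z ω)) - P.H Z =
      ∑ z ∈ img Z, P.pr Z z * (P.cond Z z).H X := by
  classical
  have h1 : P.H (fun ω => (X ω, Z ω)) - P.H Z =
      ∑ z ∈ img Z, ∑ ω with Z ω = z, P.w ω *
        (Real.log (P.pr Z (Z ω)) - Real.log (P.pr (fun ω => (X ω, Z ω)) (X ω, Z ω))) := by
    unfold H
    rw [← P.ex_sub]
    unfold ex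
    rw [← Finset.sum_fiberwise_of_maps_to (g := Z) (t := img Z) (by simp)]
    refine Finset.sum_congr rfl fun z _ => Finset.sum_congr rfl fun ω _ => ?_
    ring
  rw [h1]
  refine Finset.sum_congr rfl fun z _ => ?_
  rcases (P.pr_nonneg Z z).eq_or_lt with h0 | h0
  · rw [← h0, zero_mul]
    refine Finset.sum_eq_zero fun ω hω => ?_
    have hω' : Z ω = z := by simpa using hω
    have : P.w ω ≤ 0 := by
      have := P.w_le_pr Z ω
      rwa [hω', ← h0] at this
    rw [le_antisymm this (P.nn ω), zero_mul]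
  · unfold H ex
    simp only [P.cond_w Z z h0, P.cond_pr Z z h0, ite_mul, zero_mul]
    rw [← Finset.sum_filter, Finset.mul_sum]
    refine Finset.sum_congr rfl fun ω hω => ?_
    have hω' : Z ω = z := by simpa using hω
    rcases (P.nn ω).eq_or_lt with hw | hw
    · simp [← hw]
    · have h3 : 0 < P.pr (fun ω => (X ω, Z ω)) (X ω, z) := by
        have := P.pr_pos (fun ω => (X ω, Z ω)) hw
        rwa [hω'] at this
      rw [hω', Real.log_div h3.ne' h0.ne']
      field_simp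
      ring

/-! ### Uniform bound -/

theorem H_le_log_card (P : Law Ω) {F : Type} [Fintype F] (X : Ω → F) :
    P.H X ≤ Real.log (Fintype.card F) := by
  classical
  have hne : Nonempty Ω := by
    by_contra hcon
    rw [not_nonempty_iff] at hcon
    have := P.sum_one
    simp at this
  have hF : Nonempty F := ⟨X hne.some⟩
  have hc : (0 : ℝ) < Fintype.card F := by exact_mod_cast Fintype.card_pos
  have h := P.gibbs X (fun _ => 1 / (Fintype.card F : ℝ)) (fun _ => by positivity) ?_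
    (fun _ _ => by positivity)
  · refine h.trans (le_of_eq ?_)
    rw [P.ex_const, one_div, Real.log_inv, neg_neg]
  · rw [Finset.sum_const, nsmul_eq_mul]
    have : ((img X).card : ℝ) ≤ Fintype.card F := by exact_mod_cast Finset.card_le_univ _
    rw [mul_one_div]
    exact div_le_one_of_le₀ this hc.le

/-! ### Heavy tailed reference laws -/

lemma tail_aux (K : ℝ) (hK : 1 ≤ K) (n : ℕ) :
    ∑ k ∈ Finset.Icc (-(n : ℤ)) n, K / ((|k| : ℤ) + K) ^ 2 ≤ 3 - 2 * K / (n + K) := by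
  have hK0 : 0 < K := by linarith
  induction n with
  | zero =>
    simp
    have h1 : K / K ^ 2 = K⁻¹ := by field_simp
    have h2 : 2 * K / K = 2 := by field_simp
    rw [h1, h2]
    have : K⁻¹ ≤ 1 := inv_le_one_of_one_le₀ hK
    linarith
  | succ n ih =>
    have hset : Finset.Icc (-((n + 1 : ℕ) : ℤ)) ((n + 1 : ℕ) : ℤ) =
        insert (-((n + 1 : ℕ) : ℤ)) (insert ((n + 1 : ℕ) : ℤ) (Finset.Icc (-(n : ℤ)) n)) := by
      ext k
      simp only [Finset.mem_Icc, Finset.mem_insert]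
      push_cast
      omega
    rw [hset, Finset.sum_insert, Finset.sum_insert]
    · have e1 : ((|(-((n + 1 : ℕ) : ℤ))| : ℤ) : ℝ) = n + 1 := by
        rw [abs_neg, Nat.abs_cast]; push_cast; ring
      have e2 : ((|((n + 1 : ℕ) : ℤ)| : ℤ) : ℝ) = n + 1 := by
        rw [Nat.abs_cast]; push_cast; ring
      rw [e1, e2]
      have hn : (0 : ℝ) < n + K := by positivity
      have hn1 : (0 : ℝ) < n + 1 + K := by positivity
      have key : K / (n + 1 + K) ^ 2 ≤ K / (n + K) - K / (n + 1 + K) := by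
        rw [div_sub_div _ _ hn.ne' hn1.ne', div_le_div_iff₀ (by positivity) (by positivity)]
        nlinarith [mul_pos hn hn1, mul_pos hK0 hn1, mul_pos (mul_pos hK0 hn1) hn1]
      have e3 : 2 * K / (n + K) = 2 * (K / (n + K)) := by ring
      have e4 : 2 * K / (((n + 1 : ℕ) : ℝ) + K) = 2 * (K / (n + 1 + K)) := by
        push_cast; ring
      rw [e4]
      rw [e3] at ih
      linarith
    · simp
    · simp only [Finset.mem_insert, Finset.mem_Icc, not_or]
      push_cast
      omega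

lemma tail_sum (K : ℝ) (hK : 1 ≤ K) (g : ℤ) (F : Finset ℤ) :
    ∑ k ∈ F, K / (4 * ((|k - g| : ℤ) + K) ^ 2) ≤ 1 := by
  classical
  have hK0 : 0 < K := by linarith
  obtain ⟨n, hn⟩ : ∃ n : ℕ, ∀ k ∈ F, |k - g| ≤ n := by
    refine ⟨∑ k ∈ F, (k - g).natAbs, fun k hk => ?_⟩
    have := Finset.single_le_sum (f := fun k => (k - g).natAbs) (fun _ _ => Nat.zero_le _) hk
    rw [Int.abs_eq_natAbs]
    exact_mod_cast this
  have h1 : ∑ k ∈ F, K / ((|k - g| : ℤ) + K) ^ 2 ≤
      ∑ k ∈ Finset.Icc (-(n : ℤ)) n, K / ((|k| : ℤ) + K) ^ 2 := by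
    have h2 : ∑ k ∈ F, K / ((|k - g| : ℤ) + K) ^ 2 =
        ∑ k ∈ F.image (fun k => k - g), K / ((|k| : ℤ) + K) ^ 2 := by
      rw [Finset.sum_image]
      intro a _ b _ hab
      simpa using hab
    rw [h2]
    refine Finset.sum_le_sum_of_subset_of_nonneg ?_ ?_
    · intro k hk
      obtain ⟨k', hk', rfl⟩ := Finset.mem_image.1 hk
      have := abs_le.1 (hn k' hk')
      simpa [Finset.mem_Icc] using this
    · intro k _ _
      positivity
  have h3 := tail_aux K hK n
  have h4 : 0 ≤ 2 * K / (n + K) := by positivity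
  have h5 : ∑ k ∈ F, K / (4 * ((|k - g| : ℤ) + K) ^ 2) =
      (∑ k ∈ F, K / ((|k - g| : ℤ) + K) ^ 2) / 4 := by
    rw [Finset.sum_div]
    refine Finset.sum_congr rfl fun k _ => ?_
    rw [div_div, mul_comm]
  rw [h5]
  linarith

/-- scalar heavy tail bound -/
theorem H_scale (P : Law Ω) (Z : Ω → ℤ) (Y : Ω → T) (K : ℝ) (hK : 1 ≤ K) :
    P.H (fun ω => (Z ω, Y ω)) - P.H Y ≤
      Real.log 4 + Real.log K + 2 * P.ex (fun ω => Real.log (1 + |(Z ω : ℝ)| / K)) := by
  have hK0 : 0 < K := by linarith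
  have h := P.gibbs_cond Z Y (fun k _ => K / (4 * ((|k| : ℤ) + K) ^ 2))
    (fun k _ => by positivity) (fun _ F => by simpa using tail_sum K hK 0 F)
    (fun ω _ => by positivity)
  refine h.trans (le_of_eq ?_)
  rw [← P.ex_const_mul]
  have : Real.log 4 + Real.log K = P.ex (fun _ => Real.log 4 + Real.log K) := by
    rw [P.ex_const]
  rw [this, ← P.ex_add]
  refine P.ex_congr fun ω _ => ?_
  have hz : (0 : ℝ) ≤ |(Z ω : ℝ)| := abs_nonneg _
  have e1 : K / (4 * (((|Z ω| : ℤ) : ℝ) + K) ^ 2) = (4 * K * (1 + |(Z ω : ℝ)| / K) ^ 2)⁻¹ := by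
    push_cast
    field_simp
    ring
  rw [e1, Real.log_inv, neg_neg, Real.log_mul (by positivity) (by positivity),
    Real.log_mul (by norm_num) hK0.ne', Real.log_pow]
  push_cast
  ring

/-- approximate determination of an integer vector -/
theorem H_det (P : Law Ω) {m : ℕ} (Z : Ω → Fin m → ℤ) (Y : Ω → T) (g : T → Fin m → ℝ)
    (R : Ω → ℝ) (hR : ∀ ω c, |(Z ω c : ℝ) - g (Y ω) c| ≤ R ω) :
    P.H (fun ω => (Z ω, Y ω)) - P.H Y ≤
      m * (Real.log 4 + 2 * P.ex (fun ω => Real.log (2 + R ω))) := by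
  classical
  set q : (Fin m → ℤ) → T → ℝ :=
    fun z y => ∏ c, (1 / (4 * ((|z c - ⌊g y c⌋| : ℤ) + (1 : ℝ)) ^ 2)) with hq
  have hqpos : ∀ z y, 0 < q z y := by
    intro z y
    refine Finset.prod_pos fun c _ => ?_
    positivity
  have h := P.gibbs_cond Z Y q (fun z y => (hqpos z y).le) ?_ (fun ω _ => hqpos _ _)
  · refine h.trans ?_
    have : (m : ℝ) * (Real.log 4 + 2 * P.ex (fun ω => Real.log (2 + R ω))) =
        P.ex (fun ω => m * (Real.log 4 + 2 * Real.log (2 + R ω))) := by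
      rw [P.ex_const_mul, P.ex_add, P.ex_const, P.ex_const_mul]
    rw [this]
    refine P.ex_mono fun ω _ => ?_
    rw [hq]
    simp only
    rw [Real.log_prod]
    · rw [← Finset.sum_neg_distrib]
      have hb : ∀ c ∈ (univ : Finset (Fin m)),
          -Real.log (1 / (4 * ((|Z ω c - ⌊g (Y ω) c⌋| : ℤ) + (1 : ℝ)) ^ 2)) ≤
            Real.log 4 + 2 * Real.log (2 + R ω) := by
        intro c _
        have h1 : ((|Z ω c - ⌊g (Y ω) c⌋| : ℤ) : ℝ) ≤ R ω + 1 := by
          push_cast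
          have h2 := hR ω c
          have h3 := Int.floor_le (g (Y ω) c)
          have h4 := Int.lt_floor_add_one (g (Y ω) c)
          rw [abs_le] at h2 ⊢
          constructor <;> linarith
        have h0 : (0 : ℝ) ≤ ((|Z ω c - ⌊g (Y ω) c⌋| : ℤ) : ℝ) := by positivity
        rw [one_div, Real.log_inv, neg_neg, Real.log_mul (by norm_num) (by positivity),
          Real.log_pow]
        have h5 := Real.log_le_log (by positivity :
          0 < ((|Z ω c - ⌊g (Y ω) c⌋| : ℤ) : ℝ) + 1) (by linarith : _ ≤ 2 + R ω)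
        push_cast at h5 ⊢
        linarith
      refine (Finset.sum_le_sum hb).trans (le_of_eq ?_)
      simp [mul_add]
    · intro c _
      positivity
  · intro y F
    calc ∑ z ∈ F, q z y
        ≤ ∑ z ∈ Fintype.piFinset (fun c => F.image (fun z => z c)), q z y := by
          refine Finset.sum_le_sum_of_subset_of_nonneg ?_ fun z _ _ => (hqpos z y).le
          intro z hz
          rw [Fintype.mem_piFinset]
          intro c
          exact Finset.mem_image_of_mem _ hz
      _ = ∏ c, ∑ k ∈ F.image (fun z => z c),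
            (1 / (4 * ((|k - ⌊g y c⌋| : ℤ) + (1 : ℝ)) ^ 2)) := by
          rw [Finset.prod_univ_sum]
      _ ≤ 1 := by
          refine Finset.prod_le_one (fun c _ => Finset.sum_nonneg fun k _ => by positivity) ?_
          intro c _
          exact tail_sum 1 le_rfl _ _

/-! ### Heights -/

/-- `N / (|i - j| + 1)` -/
noncomputable def qd (N : ℕ) (i j : Fin N) : ℝ := N / (|(i : ℝ) - j| + 1)

lemma sum_inv_sqrt (n : ℕ) : ∑ k ∈ Finset.range n, 1 / Real.sqrt (k + 1) ≤ 2 * Real.sqrt n := by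
  induction n with
  | zero => simp
  | succ n ih =>
    rw [Finset.sum_range_succ]
    have h1 : 0 < Real.sqrt ((n : ℝ) + 1) := Real.sqrt_pos.2 (by positivity)
    have h0 : 0 ≤ Real.sqrt (n : ℝ) := Real.sqrt_nonneg _
    have e1 : Real.sqrt ((n : ℝ) + 1) ^ 2 = n + 1 := Real.sq_sqrt (by positivity)
    have e0 : Real.sqrt (n : ℝ) ^ 2 = n := Real.sq_sqrt (by positivity)
    have key : 1 / Real.sqrt ((n : ℝ) + 1) ≤ 2 * Real.sqrt ((n : ℝ) + 1) - 2 * Real.sqrt n := by
      rw [div_le_iff₀ h1]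
      nlinarith [sq_nonneg (Real.sqrt ((n : ℝ) + 1) - Real.sqrt n)]
    push_cast
    linarith

lemma sum_height (N : ℕ) (j : Fin N) (F : Finset (Fin N)) :
    ∑ i ∈ F, 1 / (4 * Real.sqrt N * Real.sqrt (|(i : ℝ) - j| + 1)) ≤ 1 := by
  classical
  have hN : 0 < N := j.pos
  have hN' : (0 : ℝ) < N := by exact_mod_cast hN
  have hs : 0 < Real.sqrt (N : ℝ) := Real.sqrt_pos.2 hN'
  have h1 : ∑ i ∈ F, 1 / Real.sqrt (|(i : ℝ) - j| + 1) ≤ 4 * Real.sqrt N := by
    have h2 : ∑ i ∈ F, 1 / Real.sqrt (|(i : ℝ) - j| + 1) ≤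
        ∑ i : Fin N, 1 / Real.sqrt (|(i : ℝ) - j| + 1) :=
      Finset.sum_le_sum_of_subset_of_nonneg (Finset.subset_univ _) fun i _ _ => by positivity
    have h3 : ∑ i : Fin N, 1 / Real.sqrt (|(i : ℝ) - j| + 1) =
        ∑ i ∈ Finset.range N, 1 / Real.sqrt (|(i : ℝ) - j| + 1) := by
      rw [Finset.sum_range]
    have h4 : ∀ i ∈ Finset.range N, 1 / Real.sqrt (|(i : ℝ) - j| + 1) ≤
        (if i ≤ (j : ℕ) then 1 / Real.sqrt ((((j : ℕ) - i : ℕ) : ℝ) + 1) else 0) +
        (if (j : ℕ) ≤ i then 1 / Real.sqrt (((i - (j : ℕ) : ℕ) : ℝ) + 1) else 0) := by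
      intro i _
      rcases le_total i (j : ℕ) with h | h
      · rw [if_pos h]
        have : |(i : ℝ) - j| = (((j : ℕ) - i : ℕ) : ℝ) := by
          rw [Nat.cast_sub h, abs_sub_comm, abs_of_nonneg]
          have : (i : ℝ) ≤ (j : ℕ) := by exact_mod_cast h
          linarith
        rw [this]
        have : (0 : ℝ) ≤ (if (j : ℕ) ≤ i then 1 / Real.sqrt (((i - (j : ℕ) : ℕ) : ℝ) + 1) else 0) := by
          split_ifs
          · positivity
          · exact le_rfl
        linarith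
      · rw [if_pos h]
        have : |(i : ℝ) - j| = ((i - (j : ℕ) : ℕ) : ℝ) := by
          rw [Nat.cast_sub h, abs_of_nonneg]
          have : ((j : ℕ) : ℝ) ≤ i := by exact_mod_cast h
          linarith
        rw [this]
        have : (0 : ℝ) ≤ (if i ≤ (j : ℕ) then 1 / Real.sqrt ((((j : ℕ) - i : ℕ) : ℝ) + 1) else 0) := by
          split_ifs
          · positivity
          · exact le_rfl
        linarith
    have h5 : ∑ i ∈ Finset.range N,
        (if i ≤ (j : ℕ) then 1 / Real.sqrt ((((j : ℕ) - i : ℕ) : ℝ) + 1) else 0) ≤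
        ∑ k ∈ Finset.range N, 1 / Real.sqrt ((k : ℝ) + 1) := by
      rw [← Finset.sum_filter]
      have : ∑ i ∈ (Finset.range N).filter (fun i => i ≤ (j : ℕ)),
          1 / Real.sqrt ((((j : ℕ) - i : ℕ) : ℝ) + 1) =
          ∑ k ∈ ((Finset.range N).filter (fun i => i ≤ (j : ℕ))).image (fun i => (j : ℕ) - i),
            1 / Real.sqrt ((k : ℝ) + 1) := by
        rw [Finset.sum_image]
        intro a ha b hb hab
        simp only [Finset.coe_filter, Finset.mem_range, Set.mem_ofPred_eq] at ha hb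
        simp only at hab
        omega
      rw [this]
      refine Finset.sum_le_sum_of_subset_of_nonneg ?_ fun i _ _ => by positivity
      intro k hk
      obtain ⟨i, hi, rfl⟩ := Finset.mem_image.1 hk
      have := j.2
      simp only [Finset.mem_range]
      omega
    have h6 : ∑ i ∈ Finset.range N,
        (if (j : ℕ) ≤ i then 1 / Real.sqrt (((i - (j : ℕ) : ℕ) : ℝ) + 1) else 0) ≤
        ∑ k ∈ Finset.range N, 1 / Real.sqrt ((k : ℝ) + 1) := by
      rw [← Finset.sum_filter]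
      have : ∑ i ∈ (Finset.range N).filter (fun i => (j : ℕ) ≤ i),
          1 / Real.sqrt (((i - (j : ℕ) : ℕ) : ℝ) + 1) =
          ∑ k ∈ ((Finset.range N).filter (fun i => (j : ℕ) ≤ i)).image (fun i => i - (j : ℕ)),
            1 / Real.sqrt ((k : ℝ) + 1) := by
        rw [Finset.sum_image]
        intro a ha b hb hab
        simp only [Finset.coe_filter, Finset.mem_range, Set.mem_ofPred_eq] at ha hb
        simp only at hab
        omega
      rw [this]
      refine Finset.sum_le_sum_of_subset_of_nonneg ?_ fun i _ _ => by positivity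
      intro k hk
      obtain ⟨i, hi, rfl⟩ := Finset.mem_image.1 hk
      have := (Finset.mem_filter.1 hi).1
      simp only [Finset.mem_range] at this ⊢
      omega
    have h7 := Finset.sum_le_sum h4
    rw [Finset.sum_add_distrib] at h7
    have h8 := sum_inv_sqrt N
    rw [h3] at h2
    linarith
  have h9 : ∑ i ∈ F, 1 / (4 * Real.sqrt N * Real.sqrt (|(i : ℝ) - j| + 1)) =
      (∑ i ∈ F, 1 / Real.sqrt (|(i : ℝ) - j| + 1)) / (4 * Real.sqrt N) := by
    rw [Finset.sum_div]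
    refine Finset.sum_congr rfl fun i _ => ?_
    rw [div_div, mul_comm]
  rw [h9]
  exact div_le_one_of_le₀ h1 (by positivity)

/-- two heights with large conditional entropy are far apart on logarithmic average -/
theorem ex_log_qd (P : Law Ω) {N : ℕ} (t t' : Ω → Fin N) :
    P.ex (fun ω => Real.log (qd N (t ω) (t' ω))) ≤
      2 * (Real.log 4 + Real.log N - (P.H (fun ω => (t ω, t' ω)) - P.H t')) := by
  have hne : Nonempty Ω := by
    by_contra hcon
    rw [not_nonempty_iff] at hcon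
    have := P.sum_one
    simp at this
  have hN : (0 : ℝ) < N := by exact_mod_cast (t hne.some).pos
  have hs : 0 < Real.sqrt (N : ℝ) := Real.sqrt_pos.2 hN
  have h := P.gibbs_cond t t' (fun i j => 1 / (4 * Real.sqrt N * Real.sqrt (|(i : ℝ) - j| + 1)))
    (fun i j => by positivity) (fun j F => sum_height N j F)
    (fun ω _ => by
      have : 0 < Real.sqrt (|((t ω : ℕ) : ℝ) - (t' ω : ℕ)| + 1) := Real.sqrt_pos.2 (by positivity)
      positivity)
  have h2 : P.ex (fun ω => -Real.log (1 / (4 * Real.sqrt N *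
      Real.sqrt (|((t ω : ℕ) : ℝ) - (t' ω : ℕ)| + 1)))) =
      (Real.log 4 + Real.log N) - (1 / 2) * P.ex (fun ω => Real.log (qd N (t ω) (t' ω))) := by
    rw [← P.ex_const_mul, ← P.ex_const (Real.log 4 + Real.log N), ← P.ex_sub]
    refine P.ex_congr fun ω _ => ?_
    have h3 : (0 : ℝ) < |((t ω : ℕ) : ℝ) - (t' ω : ℕ)| + 1 := by positivity
    rw [one_div, Real.log_inv, neg_neg, Real.log_mul (by positivity)
      (Real.sqrt_pos.2 h3).ne', Real.log_mul (by norm_num) hs.ne', Real.log_sqrt hN.le,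
      Real.log_sqrt h3.le, qd, Real.log_div hN.ne' h3.ne']
    ring
  linarith

/-! ### Gluing -/

section Glue

variable {Ω₁ Ω₂ : Type} [Fintype Ω₁] [Fintype Ω₂]

/-- fibre product -/
structure GT (X₁ : Ω₁ → S) (X₂ : Ω₂ → S) : Type where
  fst : Ω₁
  snd : Ω₂
  eq : X₁ fst = X₂ snd

/-- the embedding of the fibre product in the product -/
def GT.emb (X₁ : Ω₁ → S) (X₂ : Ω₂ → S) : GT X₁ X₂ ↪ Ω₁ × Ω₂ where
  toFun p := (p.fst, p.snd)
  inj' := by
    rintro ⟨a, b, h⟩ ⟨a', b', h'⟩ hh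
    simp only [Prod.mk.injEq] at hh
    obtain ⟨rfl, rfl⟩ := hh
    rfl

noncomputable instance (X₁ : Ω₁ → S) (X₂ : Ω₂ → S) : Fintype (GT X₁ X₂) :=
  Fintype.ofInjective (GT.emb X₁ X₂) (GT.emb X₁ X₂).injective

open Classical in
lemma GT_sum (X₁ : Ω₁ → S) (X₂ : Ω₂ → S) (F : Ω₁ → Ω₂ → ℝ) :
    ∑ p : GT X₁ X₂, F p.fst p.snd = ∑ a, ∑ b with X₂ b = X₁ a, F a b := by
  have h1 : ∑ p : GT X₁ X₂, F p.fst p.snd =
      ∑ p ∈ (univ : Finset (Ω₁ × Ω₂)).filter (fun p => X₁ p.1 = X₂ p.2), F p.1 p.2 := by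
    have h2 : (univ : Finset (Ω₁ × Ω₂)).filter (fun p => X₁ p.1 = X₂ p.2) =
        (univ : Finset (GT X₁ X₂)).map (GT.emb X₁ X₂) := by
      ext p
      simp only [mem_filter, mem_univ, true_and, mem_map]
      constructor
      · intro h
        exact ⟨⟨p.1, p.2, h⟩, rfl⟩
      · rintro ⟨⟨a, b, h⟩, rfl⟩
        exact h
    rw [h2, Finset.sum_map]
    rfl
  rw [h1, Finset.sum_filter, ← Finset.univ_product_univ, Finset.sum_product]
  refine Finset.sum_congr rfl fun a _ => ?_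
  rw [Finset.sum_filter]
  refine Finset.sum_congr rfl fun b _ => ?_
  simp [eq_comm]

variable (P : Law Ω₁) (Q : Law Ω₂) (X₁ : Ω₁ → S) (X₂ : Ω₂ → S)

/-- conditionally independent gluing along a common marginal -/
noncomputable def glue (h : ∀ x, P.pr X₁ x = Q.pr X₂ x) : Law (GT X₁ X₂) where
  w p := P.w p.fst * Q.w p.snd / P.pr X₁ (X₁ p.fst)
  nn p := div_nonneg (mul_nonneg (P.nn _) (Q.nn _)) (P.pr_nonneg _ _)
  sum_one := by
    classical
    rw [GT_sum X₁ X₂ (fun a b => P.w a * Q.w b / P.pr X₁ (X₁ a)), ← P.sum_one]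
    refine Finset.sum_congr rfl fun a _ => ?_
    rcases (P.nn a).eq_or_lt with h0 | h0
    · simp [← h0]
    · have h1 := P.pr_pos X₁ h0
      rw [← Finset.sum_div, ← Finset.mul_sum]
      have : ∑ b with X₂ b = X₁ a, Q.w b = P.pr X₁ (X₁ a) := by
        rw [h, pr]
      rw [this, mul_div_assoc, div_self h1.ne', mul_one]

variable {P Q X₁ X₂}

lemma glue_ex (h : ∀ x, P.pr X₁ x = Q.pr X₂ x) (f : Ω₁ → ℝ) :
    (glue P Q X₁ X₂ h).ex (fun p => f p.fst) = P.ex f := by
  classical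
  unfold ex glue
  simp only
  rw [GT_sum X₁ X₂ (fun a b => P.w a * Q.w b / P.pr X₁ (X₁ a) * f a)]
  refine Finset.sum_congr rfl fun a _ => ?_
  rcases (P.nn a).eq_or_lt with h0 | h0
  · simp [← h0]
  · have h1 := P.pr_pos X₁ h0
    rw [← Finset.sum_mul, ← Finset.sum_div, ← Finset.mul_sum]
    have : ∑ b with X₂ b = X₁ a, Q.w b = P.pr X₁ (X₁ a) := by
      rw [h, pr]
    rw [this, mul_div_assoc, div_self h1.ne', mul_one]

open Classical in
/-- indicator of a proposition -/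
noncomputable def ind (p : Prop) : ℝ := if p then 1 else 0

lemma ind_of {p : Prop} (h : p) : ind p = 1 := by simp [ind, h]

lemma ind_not {p : Prop} (h : ¬ p) : ind p = 0 := by simp [ind, h]

lemma pr_eq_ex (P : Law Ω₁) (X : Ω₁ → S) (x : S) :
    P.pr X x = P.ex (fun ω => ind (X ω = x)) := by
  unfold pr ex
  rw [Finset.sum_filter]
  refine Finset.sum_congr rfl fun ω _ => ?_
  split_ifs with hh
  · simp only [ind_of hh, mul_one]
  · simp only [ind_not hh, mul_zero]

lemma glue_pr (h : ∀ x, P.pr X₁ x = Q.pr X₂ x) (f : Ω₁ → T) (y : T) :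
    (glue P Q X₁ X₂ h).pr (fun p => f p.fst) y = P.pr f y := by
  rw [pr_eq_ex, pr_eq_ex]
  exact glue_ex h (fun a => ind (f a = y))

/-- swap -/
def GT.swapE (X₁ : Ω₁ → S) (X₂ : Ω₂ → S) : GT X₁ X₂ ≃ GT X₂ X₁ where
  toFun p := ⟨p.snd, p.fst, p.eq.symm⟩
  invFun p := ⟨p.snd, p.fst, p.eq.symm⟩
  left_inv _ := rfl
  right_inv _ := rfl

lemma glue_ex' (h : ∀ x, P.pr X₁ x = Q.pr X₂ x) (f : Ω₂ → ℝ) :
    (glue P Q X₁ X₂ h).ex (fun p => f p.snd) = Q.ex f := by
  rw [← glue_ex (P := Q) (Q := P) (X₁ := X₂) (X₂ := X₁) (fun x => (h x).symm) f]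
  unfold ex
  refine Fintype.sum_equiv (GT.swapE X₁ X₂) _ _ fun p => ?_
  simp only [glue, GT.swapE, Equiv.coe_fn_mk]
  rw [← p.eq, ← h, mul_comm (P.w _)]

lemma glue_pr' (h : ∀ x, P.pr X₁ x = Q.pr X₂ x) (f : Ω₂ → T) (y : T) :
    (glue P Q X₁ X₂ h).pr (fun p => f p.snd) y = Q.pr f y := by
  rw [pr_eq_ex, pr_eq_ex]
  exact glue_ex' h (fun a => ind (f a = y))

lemma glue_H (h : ∀ x, P.pr X₁ x = Q.pr X₂ x) (f : Ω₁ → T) :
    (glue P Q X₁ X₂ h).H (fun p => f p.fst) = P.H f := by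
  unfold H
  simp only [glue_pr]
  exact glue_ex h (fun a => - Real.log (P.pr f (f a)))

lemma glue_H' (h : ∀ x, P.pr X₁ x = Q.pr X₂ x) (f : Ω₂ → T) :
    (glue P Q X₁ X₂ h).H (fun p => f p.snd) = Q.H f := by
  unfold H
  simp only [glue_pr']
  exact glue_ex' h (fun a => - Real.log (Q.pr f (f a)))

/-- conditional independence in a glued law -/
theorem glue_indep (h : ∀ x, P.pr X₁ x = Q.pr X₂ x) (f : Ω₁ → T) (g : Ω₂ → U) :
    (glue P Q X₁ X₂ h).H (fun p => (f p.fst, g p.snd, X₁ p.fst)) =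
      P.H (fun a => (f a, X₁ a)) + Q.H (fun b => (g b, X₂ b)) - P.H X₁ := by
  classical
  have key : ∀ y z x, (glue P Q X₁ X₂ h).pr (fun p => (f p.fst, g p.snd, X₁ p.fst)) (y, z, x) =
      P.pr (fun a => (f a, X₁ a)) (y, x) * Q.pr (fun b => (g b, X₂ b)) (z, x) / P.pr X₁ x := by
    intro y z x
    rw [pr_eq_ex]
    unfold ex glue
    simp only
    rw [GT_sum X₁ X₂ (fun a b => P.w a * Q.w b / P.pr X₁ (X₁ a) *
      ind ((f a, g b, X₁ a) = (y, z, x)))]
    have h1 : ∀ a, ∑ b with X₂ b = X₁ a, P.w a * Q.w b / P.pr X₁ (X₁ a) *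
        ind ((f a, g b, X₁ a) = (y, z, x)) =
          P.w a * ind ((f a, X₁ a) = (y, x)) *
            (Q.pr (fun b => (g b, X₂ b)) (z, x) / P.pr X₁ x) := by
      intro a
      by_cases hc : (f a, X₁ a) = (y, x)
      · rw [ind_of hc]
        simp only [Prod.mk.injEq] at hc
        obtain ⟨rfl, rfl⟩ := hc
        rw [pr_eq_ex Q, ex, Finset.sum_div, Finset.mul_sum, Finset.sum_filter]
        refine Finset.sum_congr rfl fun b _ => ?_
        by_cases h3 : X₂ b = X₁ a
        · rw [if_pos h3]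
          by_cases h4 : g b = z
          · rw [ind_of (by rw [h4]), ind_of (by rw [h3, h4])]
            ring
          · rw [ind_not (by simp [h4]), ind_not (by simp [h4])]
            ring
        · rw [if_neg h3, ind_not (by simp [h3])]
          ring
      · rw [ind_not hc]
        rw [mul_zero, zero_mul]
        refine Finset.sum_eq_zero fun b _ => ?_
        rw [ind_not, mul_zero]
        simp only [Prod.mk.injEq, not_and] at hc ⊢
        intro h1 _ h2
        exact hc h1 h2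
    simp only [h1]
    rw [← Finset.sum_mul, mul_div_assoc, pr_eq_ex P (fun a => (f a, X₁ a))]
    rfl
  unfold H
  simp only [key]
  rw [← glue_ex h (fun a => -Real.log (P.pr (fun a => (f a, X₁ a)) (f a, X₁ a))),
    ← glue_ex' h (fun b => -Real.log (Q.pr (fun b => (g b, X₂ b)) (g b, X₂ b))),
    ← glue_ex h (fun a => -Real.log (P.pr X₁ (X₁ a))), ← ex_add, ← ex_sub]
  refine ex_congr _ fun p hp => ?_
  have hp' : 0 < P.w p.fst * Q.w p.snd / P.pr X₁ (X₁ p.fst) := hp
  have ha : 0 < P.w p.fst := by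
    rcases (P.nn p.fst).eq_or_lt with h0 | h0
    · simp [← h0] at hp'
    · exact h0
  have hb : 0 < Q.w p.snd := by
    rcases (Q.nn p.snd).eq_or_lt with h0 | h0
    · simp [← h0] at hp'
    · exact h0
  have p1 := P.pr_pos (fun a => (f a, X₁ a)) ha
  have p2 := Q.pr_pos (fun b => (g b, X₂ b)) hb
  have p3 := P.pr_pos X₁ ha
  have e := p.eq
  rw [Real.log_div _ p3.ne', Real.log_mul p1.ne' _, e]
  · ring
  · rw [e]; exact p2.ne'
  · rw [e]; exact mul_ne_zero (by rw [← e]; exact p1.ne') p2.ne'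

end Glue

end Law

/-! ### Joint entropies of families -/

section Family

variable {Ω : Type} [Fintype Ω] {ι : Type} {T : ι → Type*}

/-- joint entropy of the variables with index in `A` -/
noncomputable def Law.h (P : Law Ω) (Z : ∀ i, Ω → T i) (A : Finset ι) : ℝ :=
  P.H (fun ω => fun i : {i // i ∈ A} => Z i ω)

lemma Law.h_eq (P : Law Ω) (Z : ∀ i, Ω → T i) (A : Finset ι) {S : Type*} (X : Ω → S)
    (hX : ∀ ω ω', (∀ i ∈ A, Z i ω = Z i ω') ↔ X ω = X ω') : P.h Z A = P.H X := by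
  refine P.H_congr fun ω ω' => ?_
  rw [← hX, funext_iff]
  simp

lemma Law.h_mono (P : Law Ω) (Z : ∀ i, Ω → T i) {A B : Finset ι} (h : A ⊆ B) :
    P.h Z A ≤ P.h Z B := by
  refine P.H_mono fun ω ω' => ?_
  rw [funext_iff, funext_iff]
  intro h1 i
  exact h1 ⟨i.1, h i.2⟩

/-- variables in `B` that are functions of those in `A` -/
lemma Law.h_det (P : Law Ω) (Z : ∀ i, Ω → T i) {A B : Finset ι}
    (h : ∀ ω ω', (∀ i ∈ A, Z i ω = Z i ω') → ∀ i ∈ B, Z i ω = Z i ω') :
    P.h Z B ≤ P.h Z A := by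
  refine P.H_mono fun ω ω' => ?_
  rw [funext_iff, funext_iff]
  intro h1 i
  exact h ω ω' (fun i hi => h1 ⟨i, hi⟩) i.1 i.2

lemma Law.h_submod [DecidableEq ι] (P : Law Ω) (Z : ∀ i, Ω → T i) (A B D E : Finset ι)
    (hD : D ⊆ A ∪ B) (hEA : E ⊆ A) (hEB : E ⊆ B) :
    P.h Z D + P.h Z E ≤ P.h Z A + P.h Z B := by
  have h := P.submod (fun ω => fun i : {i // i ∈ A} => Z i ω) (fun ω => fun i : {i // i ∈ B} => Z i ω)
    (fun ω => fun i : {i // i ∈ E} => Z i ω)
  have h1 : P.h Z D ≤ P.H (fun ω => ((fun i : {i // i ∈ A} => Z i ω), (fun i : {i // i ∈ B} => Z i ω),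
      (fun i : {i // i ∈ E} => Z i ω))) := by
    refine P.H_mono fun ω ω' => ?_
    simp only [Prod.mk.injEq, funext_iff]
    rintro ⟨h1, h2, _⟩ i
    rcases Finset.mem_union.1 (hD i.2) with h3 | h3
    · exact h1 ⟨i.1, h3⟩
    · exact h2 ⟨i.1, h3⟩
  have h2 : P.H (fun ω => ((fun i : {i // i ∈ A} => Z i ω), (fun i : {i // i ∈ E} => Z i ω))) =
      P.h Z A := by
    refine P.H_congr fun ω ω' => ?_
    simp only [Prod.mk.injEq, funext_iff]
    exact ⟨fun h => h.1, fun h => ⟨h, fun i => h ⟨i.1, hEA i.2⟩⟩⟩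
  have h3 : P.H (fun ω => ((fun i : {i // i ∈ B} => Z i ω), (fun i : {i // i ∈ E} => Z i ω))) =
      P.h Z B := by
    refine P.H_congr fun ω ω' => ?_
    simp only [Prod.mk.injEq, funext_iff]
    exact ⟨fun h => h.1, fun h => ⟨h, fun i => h ⟨i.1, hEB i.2⟩⟩⟩
  have h4 : P.h Z E = P.H (fun ω => fun i : {i // i ∈ E} => Z i ω) := rfl
  linarith

end Family

end Vale.Agent.P127
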