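import Vale.Agent.P127.Param
import Vale.Agent.P127.KDefs

/-!
# P127: definitions for the maximal function
-/

namespace Vale.Agent.P127

open MeasureTheory

/-- the unit direction with slope `v` -/
noncomputable def dir {m : ℕ} (v : Fin m → ℝ) : EuclideanSpace ℝ (Fin (m + 1)) :=
  ‖pt 0 v 1‖⁻¹ • pt 0 v 1

/-- local restricted weak type estimate, in terms of slopes -/
def LocRWT (m : ℕ) (β C : ℝ) : Prop :=
  ∀ δ : ℝ, 0 < δ → δ < 1 → ∀ E : Set (EuclideanSpace ℝ (Fin (m + 1))), MeasurableSet E →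
    ∀ lam : ℝ, 0 < lam → lam ≤ 1 → ∀ A : Set (Fin m → ℝ),
    (∀ v ∈ A, (∀ i, |v i| ≤ 1) ∧ ∃ a : EuclideanSpace ℝ (Fin (m + 1)), (∀ i, |a i| ≤ 1) ∧
      ENNReal.ofReal lam * volume (tube δ a (dir v)) ≤ volume (E ∩ tube δ a (dir v))) →
    volume A ≤ ENNReal.ofReal (C * lam ^ (-C) * δ ^ (-(m * (β - 1)))) * volume E ^ β

/-- restricted weak type estimate on the sphere -/
def RWT (n : ℕ) (β C : ℝ) : Prop :=
  ∀ δ : ℝ, 0 < δ → δ < 1 → ∀ E : Set (EuclideanSpace ℝ (Fin n)), MeasurableSet E →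
    ∀ lam : ℝ, 0 < lam → lam ≤ 1 →
    (volume : Measure (EuclideanSpace ℝ (Fin n))).toSphere
      {e | ENNReal.ofReal lam < kakeyaMax δ (E.indicator 1) e.1} ≤
    ENNReal.ofReal (C * lam ^ (-C) * δ ^ (-(((n : ℝ) - 1) * (β - 1)))) * volume E ^ β

end Vale.Agent.P127
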