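import Vale.Agent.P127.MaxDefs

/-!
# P127: from the local estimate in terms of slopes to the estimate on the sphere
-/

namespace Vale.Agent.P127

open MeasureTheory Set
open scoped Pointwise

/-- the slope of a vector -/
noncomputable def slope {m : ℕ} (x : EuclideanSpace ℝ (Fin (m + 1))) : Fin m → ℝ :=
  fun i => x.ofLp (Fin.castSucc i) / x.ofLp (Fin.last m)

lemma measurable_coord {n : ℕ} (i : Fin n) :
    Measurable fun x : EuclideanSpace ℝ (Fin n) => x.ofLp i :=
  (measurable_pi_apply i).comp (WithLp.measurable_ofLp 2 _)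

lemma measurable_slope {m : ℕ} : Measurable (slope (m := m)) :=
  measurable_pi_lambda _ fun _ => (measurable_coord _).div (measurable_coord _)

lemma coord_le_norm {n : ℕ} (x : EuclideanSpace ℝ (Fin n)) (i : Fin n) : |x.ofLp i| ≤ ‖x‖ := by
  have := PiLp.norm_apply_le x i
  simpa using this

/-- the cone over a set of slopes has measure at most the measure of the set -/
lemma volume_cone {m : ℕ} {H : Set (Fin m → ℝ)} (hH : MeasurableSet H) :
    volume {x : EuclideanSpace ℝ (Fin (m + 1)) |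
      0 < x.ofLp (Fin.last m) ∧ x.ofLp (Fin.last m) ≤ 1 ∧ slope x ∈ H} ≤ volume H := by
  set T : Set (ℝ × (Fin m → ℝ)) := {q | 0 < q.1 ∧ q.1 ≤ 1 ∧ (fun i => q.2 i / q.1) ∈ H} with hT
  have hmT : MeasurableSet T := by
    refine (measurableSet_lt measurable_const measurable_fst).inter
      ((measurableSet_le measurable_fst measurable_const).inter ?_)
    have : Measurable fun q : ℝ × (Fin m → ℝ) => (fun i => q.2 i / q.1) :=
      measurable_pi_lambda _ fun i =>
        ((measurable_pi_apply i).comp measurable_snd).div measurable_fst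
    exact this hH
  have hp := (volume_preserving_piFinSuccAbove (fun _ : Fin (m + 1) => ℝ) (Fin.last m)).comp
    (PiLp.volume_preserving_ofLp (Fin (m + 1)))
  have he : {x : EuclideanSpace ℝ (Fin (m + 1)) |
      0 < x.ofLp (Fin.last m) ∧ x.ofLp (Fin.last m) ≤ 1 ∧ slope x ∈ H} =
      ((MeasurableEquiv.piFinSuccAbove (fun _ : Fin (m + 1) => ℝ) (Fin.last m)) ∘
        (@WithLp.ofLp 2 (Fin (m + 1) → ℝ))) ⁻¹' T := by
    ext x
    have h1 : ((MeasurableEquiv.piFinSuccAbove (fun _ : Fin (m + 1) => ℝ) (Fin.last m))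
        x.ofLp).1 = x.ofLp (Fin.last m) := rfl
    have h2 : ∀ i, ((MeasurableEquiv.piFinSuccAbove (fun _ : Fin (m + 1) => ℝ) (Fin.last m))
        x.ofLp).2 i = x.ofLp (Fin.castSucc i) := fun i => by
      rw [← Fin.succAbove_last_apply]; rfl
    have h3 : slope x = fun i => ((MeasurableEquiv.piFinSuccAbove
        (fun _ : Fin (m + 1) => ℝ) (Fin.last m)) x.ofLp).2 i /
        ((MeasurableEquiv.piFinSuccAbove (fun _ : Fin (m + 1) => ℝ) (Fin.last m)) x.ofLp).1 := by
      funext i
      rw [h2, h1]; rfl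
    rw [mem_ofPred_eq, h3, ← h1]
    rfl
  rw [he, hp.measure_preimage hmT.nullMeasurableSet,
    Measure.volume_eq_prod, Measure.prod_apply hmT]
  have hb : ∀ y : ℝ, volume (Prod.mk y ⁻¹' T) ≤ (Ioc (0 : ℝ) 1).indicator (fun _ => volume H) y := by
    intro y
    by_cases hy : y ∈ Ioc (0 : ℝ) 1
    · rw [indicator_of_mem hy]
      have h4 : Prod.mk y ⁻¹' T ⊆ (fun w => y⁻¹ • w) ⁻¹' H := by
        rintro w ⟨-, -, hw⟩
        have : (y⁻¹ • w) = fun i => w i / y := by
          funext i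
          simp [div_eq_inv_mul]
        rw [mem_preimage, this]
        exact hw
      refine (measure_mono h4).trans ?_
      rw [Measure.addHaar_preimage_smul _ (inv_ne_zero hy.1.ne')]
      refine mul_le_of_le_one_left zero_le ?_
      rw [ENNReal.ofReal_le_one, inv_pow, inv_inv, abs_of_nonneg (pow_nonneg hy.1.le _)]
      exact pow_le_one₀ hy.1.le hy.2
    · rw [indicator_of_notMem hy]
      have : Prod.mk y ⁻¹' T = ∅ := by
        ext w
        simp only [mem_preimage, mem_empty_iff_false, iff_false]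
        rintro ⟨h1, h2, -⟩
        exact hy ⟨h1, h2⟩
      simp [this]
  refine (lintegral_mono hb).trans ?_
  rw [lintegral_indicator measurableSet_Ioc]
  simp


/-- the measure of a set of directions with slopes in `H` -/
lemma toSphere_slope_le {m : ℕ}
    (U : EuclideanSpace ℝ (Fin (m + 1)) ≃ₗᵢ[ℝ] EuclideanSpace ℝ (Fin (m + 1)))
    {H : Set (Fin m → ℝ)} (hH : MeasurableSet H) :
    (volume : Measure (EuclideanSpace ℝ (Fin (m + 1)))).toSphere
      {e | 0 < (U e.1).ofLp (Fin.last m) ∧ slope (U e.1) ∈ H} ≤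
      ((m + 1 : ℕ) : ENNReal) * volume H := by
  have hU : Measurable fun e : Metric.sphere (0 : EuclideanSpace ℝ (Fin (m + 1))) 1 => U e.1 :=
    U.continuous.measurable.comp measurable_subtype_coe
  have hms : MeasurableSet {e : Metric.sphere (0 : EuclideanSpace ℝ (Fin (m + 1))) 1 |
      0 < (U e.1).ofLp (Fin.last m) ∧ slope (U e.1) ∈ H} :=
    (measurableSet_lt measurable_const ((measurable_coord _).comp hU)).inter
      ((measurable_slope.comp hU) hH)
  rw [Measure.toSphere_apply' _ hms, finrank_euclideanSpace, Fintype.card_fin]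
  refine mul_le_mul_right ?_ _
  have hsub : Ioo (0 : ℝ) 1 • (Subtype.val ''
      {e : Metric.sphere (0 : EuclideanSpace ℝ (Fin (m + 1))) 1 |
        0 < (U e.1).ofLp (Fin.last m) ∧ slope (U e.1) ∈ H}) ⊆
      U ⁻¹' {x : EuclideanSpace ℝ (Fin (m + 1)) |
        0 < x.ofLp (Fin.last m) ∧ x.ofLp (Fin.last m) ≤ 1 ∧ slope x ∈ H} := by
    rintro x ⟨r, hr, y, ⟨e, ⟨he1, he2⟩, rfl⟩, rfl⟩
    have h1 : U (r • e.1) = r • U e.1 := map_smul _ _ _
    have h2 : (r • U e.1).ofLp (Fin.last m) = r * (U e.1).ofLp (Fin.last m) := by simp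
    have h3 : slope (r • U e.1) = slope (U e.1) := by
      funext i
      simp only [slope, PiLp.smul_apply, smul_eq_mul]
      rw [mul_div_mul_left _ _ hr.1.ne']
    have h4 : ‖U e.1‖ = 1 := by
      rw [LinearIsometryEquiv.norm_map]
      simp
    have h5 := coord_le_norm (U e.1) (Fin.last m)
    rw [h4, abs_of_pos he1] at h5
    simp only [mem_preimage, mem_ofPred_eq]
    rw [h1, h2, h3]
    exact ⟨mul_pos hr.1 he1, by nlinarith [hr.1, hr.2], he2⟩
  refine (measure_mono hsub).trans ?_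
  have hmc : MeasurableSet {x : EuclideanSpace ℝ (Fin (m + 1)) |
      0 < x.ofLp (Fin.last m) ∧ x.ofLp (Fin.last m) ≤ 1 ∧ slope x ∈ H} :=
    (measurableSet_lt measurable_const (measurable_coord _)).inter
      ((measurableSet_le (measurable_coord _) measurable_const).inter (measurable_slope hH))
  rw [U.measurePreserving.measure_preimage hmc.nullMeasurableSet]
  exact volume_cone hH


/-- isometries map tubes to tubes -/
lemma mem_tube_map {n : ℕ} (U : EuclideanSpace ℝ (Fin n) ≃ₗᵢ[ℝ] EuclideanSpace ℝ (Fin n))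
    (δ : ℝ) (a e x : EuclideanSpace ℝ (Fin n)) :
    U x ∈ tube δ (U a) (U e) ↔ x ∈ tube δ a e := by
  constructor
  · rintro ⟨t, u, ht, hu, hn, hx⟩
    refine ⟨t, U.symm u, ht, ?_, ?_, ?_⟩
    · rw [← U.inner_map_map, U.apply_symm_apply]
      exact hu
    · rw [LinearIsometryEquiv.norm_map]
      exact hn
    · apply U.injective
      simp [hx]
  · rintro ⟨t, u, ht, hu, hn, rfl⟩
    refine ⟨t, U u, ht, ?_, ?_, ?_⟩
    · rw [U.inner_map_map]
      exact hu
    · rw [LinearIsometryEquiv.norm_map]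
      exact hn
    · simp

lemma mem_tube_add {n : ℕ} (δ : ℝ) (z a e x : EuclideanSpace ℝ (Fin n)) :
    x + z ∈ tube δ (a + z) e ↔ x ∈ tube δ a e := by
  constructor
  · rintro ⟨t, u, ht, hu, hn, hx⟩
    refine ⟨t, u, ht, hu, hn, ?_⟩
    have : x + z = (a + t • e + u) + z := by rw [hx]; abel
    exact add_right_cancel this
  · rintro ⟨t, u, ht, hu, hn, rfl⟩
    exact ⟨t, u, ht, hu, hn, by abel⟩

lemma tube_subset_box {n : ℕ} {δ : ℝ} (hδ : δ ≤ 1) {a e x : EuclideanSpace ℝ (Fin n)}
    (ha : ∀ i, |a.ofLp i| ≤ 1) (he : ‖e‖ = 1) (hx : x ∈ tube δ a e) (i : Fin n) :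
    |x.ofLp i| ≤ 4 := by
  obtain ⟨t, u, ht, -, hn, rfl⟩ := hx
  have h1 := coord_le_norm (t • e) i
  have h2 := coord_le_norm u i
  rw [norm_smul, he, mul_one, Real.norm_eq_abs] at h1
  have h3 : (a + t • e + u).ofLp i = a.ofLp i + (t • e).ofLp i + u.ofLp i := by simp
  rw [h3]
  have h4 := abs_add_le (a.ofLp i + (t • e).ofLp i) (u.ofLp i)
  have h5 := abs_add_le (a.ofLp i) ((t • e).ofLp i)
  have := ha i
  linarith

/-- a unit vector with positive last coordinate is the direction of its slope -/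
lemma dir_slope {m : ℕ} {e : EuclideanSpace ℝ (Fin (m + 1))} (he : ‖e‖ = 1)
    (hl : 0 < e.ofLp (Fin.last m)) : dir (slope e) = e := by
  have h1 : pt 0 (slope e) 1 = (e.ofLp (Fin.last m))⁻¹ • e := by
    ext i
    refine Fin.lastCases ?_ (fun i => ?_) i
    · rw [pt_last]
      simp [hl.ne']
    · rw [pt_castSucc]
      simp [slope, div_eq_inv_mul]
  rw [dir, h1, norm_smul, he, mul_one, norm_inv, inv_inv, smul_smul, Real.norm_eq_abs,
    abs_of_pos hl, mul_inv_cancel₀ hl.ne', one_smul]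

lemma tsum_rpow_le {ι : Type*} (f : ι → ENNReal) {β : ℝ} (hβ : 1 ≤ β) :
    ∑' i, f i ^ β ≤ (∑' i, f i) ^ β := by
  set S := ∑' i, f i with hS
  by_cases h0 : S = 0
  · have : ∀ i, f i = 0 := ENNReal.tsum_eq_zero.1 h0
    simp [this, ENNReal.zero_rpow_of_pos (by linarith : 0 < β)]
  by_cases ht : S = ⊤
  · rw [ht, ENNReal.top_rpow_of_pos (by linarith)]
    exact le_top
  have h1 : ∀ i, f i ^ β ≤ f i * S ^ (β - 1) := by
    intro i
    have hi : f i ≤ S := ENNReal.le_tsum i
    by_cases hi0 : f i = 0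
    · rw [hi0, ENNReal.zero_rpow_of_pos (by linarith)]
      exact zero_le
    have hit : f i ≠ ⊤ := ne_top_of_le_ne_top ht hi
    calc f i ^ β = f i ^ (1 + (β - 1)) := by ring_nf
      _ = f i ^ (1 : ℝ) * f i ^ (β - 1) := ENNReal.rpow_add _ _ hi0 hit
      _ ≤ f i * S ^ (β - 1) := by
          rw [ENNReal.rpow_one]
          exact mul_le_mul_right (ENNReal.rpow_le_rpow hi (by linarith)) _
  calc ∑' i, f i ^ β ≤ ∑' i, f i * S ^ (β - 1) := ENNReal.tsum_le_tsum h1
    _ = S * S ^ (β - 1) := by rw [ENNReal.tsum_mul_right]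
    _ = S ^ (1 : ℝ) * S ^ (β - 1) := by rw [ENNReal.rpow_one]
    _ = S ^ β := by
        rw [← ENNReal.rpow_add _ _ h0 ht]
        ring_nf

/-- the integer point as a vector -/
noncomputable def zvec {n : ℕ} (z : Fin n → ℤ) : EuclideanSpace ℝ (Fin n) :=
  WithLp.toLp 2 fun i => (z i : ℝ)

lemma zvec_apply {n : ℕ} (z : Fin n → ℤ) (i : Fin n) : (zvec z).ofLp i = z i := rfl

/-- localised and recentred set -/
def locSet {n : ℕ} (E : Set (EuclideanSpace ℝ (Fin n))) (z : Fin n → ℤ) :
    Set (EuclideanSpace ℝ (Fin n)) :=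
  {x | (∀ i, |x.ofLp i| ≤ 4) ∧ x + zvec z ∈ E}

lemma measurableSet_locSet {n : ℕ} {E : Set (EuclideanSpace ℝ (Fin n))} (hE : MeasurableSet E)
    (z : Fin n → ℤ) : MeasurableSet (locSet E z) := by
  have h1 : MeasurableSet {x : EuclideanSpace ℝ (Fin n) | ∀ i, |x.ofLp i| ≤ 4} := by
    have : {x : EuclideanSpace ℝ (Fin n) | ∀ i, |x.ofLp i| ≤ 4} =
        ⋂ i, {x : EuclideanSpace ℝ (Fin n) | |x.ofLp i| ≤ 4} := by
      ext x; simp
    rw [this]
    exact MeasurableSet.iInter fun i =>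
      measurableSet_le (measurable_coord i).abs measurable_const
  exact h1.inter ((measurable_id.add_const (zvec z)) hE)

/-- integer part -/
noncomputable def fl {n : ℕ} (x : EuclideanSpace ℝ (Fin n)) : Fin n → ℤ := fun i => ⌊x.ofLp i⌋

lemma measurable_fl {n : ℕ} : Measurable (fl (n := n)) :=
  measurable_pi_lambda _ fun _ => (measurable_coord _).floor

lemma tsum_fl {n : ℕ} {E : Set (EuclideanSpace ℝ (Fin n))} (hE : MeasurableSet E) :
    ∑' w : Fin n → ℤ, volume (E ∩ fl ⁻¹' {w}) = volume E := by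
  rw [← measure_iUnion]
  · congr 1
    ext x
    simp
  · intro a b hab
    refine Set.disjoint_left.2 ?_
    rintro x ⟨-, hx⟩ ⟨-, hx'⟩
    exact hab (by rw [mem_preimage, mem_singleton_iff] at hx hx'; rw [← hx, ← hx'])
  · intro w
    exact hE.inter (measurable_fl (measurableSet_singleton w))

lemma tsum_locSet {n : ℕ} {E : Set (EuclideanSpace ℝ (Fin n))} (hE : MeasurableSet E) :
    ∑' z : Fin n → ℤ, volume (locSet E z) ≤ (11 : ENNReal) ^ n * volume E := by
  classical
  set F : Finset (Fin n → ℤ) := Fintype.piFinset fun _ => Finset.Icc (-5 : ℤ) 5 with hF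
  have hcard : (F.card : ENNReal) = 11 ^ n := by
    rw [hF, Fintype.card_piFinset]
    simp
  have h1 : ∀ z, volume (locSet E z) ≤ ∑ k ∈ F, volume (E ∩ fl ⁻¹' {z + k}) := by
    intro z
    have h2 : locSet E z ⊆ (fun x => x + zvec z) ⁻¹' (⋃ k ∈ F, E ∩ fl ⁻¹' {z + k}) := by
      rintro x ⟨hx1, hx2⟩
      rw [mem_preimage, mem_iUnion₂]
      refine ⟨fun i => ⌊x.ofLp i⌋, ?_, hx2, ?_⟩
      · rw [hF, Fintype.mem_piFinset]
        intro i
        have := abs_le.1 (hx1 i)
        rw [Finset.mem_Icc]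
        constructor
        · rw [Int.le_floor]; push_cast; linarith
        · have h3 : ((⌊x.ofLp i⌋ : ℤ) : ℝ) ≤ (5 : ℤ) := by
            push_cast
            linarith [Int.floor_le (x.ofLp i)]
          exact_mod_cast h3
      · rw [mem_preimage, mem_singleton_iff]
        funext i
        simp only [fl, PiLp.add_apply, zvec_apply, Pi.add_apply]
        rw [Int.floor_add_intCast, add_comm]
    calc volume (locSet E z) ≤ volume ((fun x => x + zvec z) ⁻¹'
          (⋃ k ∈ F, E ∩ fl ⁻¹' {z + k})) := measure_mono h2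
      _ = volume (⋃ k ∈ F, E ∩ fl ⁻¹' {z + k}) := measure_preimage_add_right _ _ _
      _ ≤ ∑ k ∈ F, volume (E ∩ fl ⁻¹' {z + k}) := measure_biUnion_finset_le _ _
  calc ∑' z, volume (locSet E z) ≤ ∑' z, ∑ k ∈ F, volume (E ∩ fl ⁻¹' {z + k}) :=
        ENNReal.tsum_le_tsum h1
    _ = ∑ k ∈ F, ∑' z, volume (E ∩ fl ⁻¹' {z + k}) :=
        Summable.tsum_finsetSum fun _ _ => ENNReal.summable
    _ = ∑ _k ∈ F, volume E := by
        refine Finset.sum_congr rfl fun k _ => ?_
        rw [← tsum_fl hE, ← (Equiv.addRight k).tsum_eq fun w => volume (E ∩ fl ⁻¹' {w})]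
        rfl
    _ = (11 : ENNReal) ^ n * volume E := by
        rw [Finset.sum_const, nsmul_eq_mul, hcard]

/-- the part of the exceptional set with slopes bounded in one coordinate system -/
lemma sphere_part {β C : ℝ} (hβ : 1 ≤ β) {m : ℕ} (h : LocRWT m β C) {δ : ℝ} (hδ0 : 0 < δ)
    (hδ1 : δ < 1) {E : Set (EuclideanSpace ℝ (Fin (m + 1)))} (hE : MeasurableSet E)
    {lam : ℝ} (hl0 : 0 < lam) (hl1 : lam ≤ 1)
    (U : EuclideanSpace ℝ (Fin (m + 1)) ≃ₗᵢ[ℝ] EuclideanSpace ℝ (Fin (m + 1))) :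
    (volume : Measure (EuclideanSpace ℝ (Fin (m + 1)))).toSphere
      {e | 0 < (U e.1).ofLp (Fin.last m) ∧
        (∀ i, |(U e.1).ofLp i| ≤ (U e.1).ofLp (Fin.last m)) ∧
        ∃ a, ENNReal.ofReal lam * volume (tube δ a e.1) ≤ volume (E ∩ tube δ a e.1)} ≤
      ((m + 1 : ℕ) : ENNReal) * (ENNReal.ofReal (C * lam ^ (-C) * δ ^ (-(m * (β - 1)))) *
        ((11 : ENNReal) ^ (m + 1) * volume E) ^ β) := by
  set K := ENNReal.ofReal (C * lam ^ (-C) * δ ^ (-(m * (β - 1)))) with hK
  set E' : Set (EuclideanSpace ℝ (Fin (m + 1))) := U.symm ⁻¹' E with hE'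
  have hmE' : MeasurableSet E' := U.symm.continuous.measurable hE
  have hvE' : volume E' = volume E :=
    U.symm.measurePreserving.measure_preimage hE.nullMeasurableSet
  have hvU : ∀ s : Set (EuclideanSpace ℝ (Fin (m + 1))), volume (U ⁻¹' s) = volume s := fun s =>
    (show MeasurePreserving U.toHomeomorph.toMeasurableEquiv volume volume from
      U.measurePreserving).measure_preimage_equiv s
  set A : (Fin (m + 1) → ℤ) → Set (Fin m → ℝ) := fun z =>
    {v | (∀ i, |v i| ≤ 1) ∧ ∃ a : EuclideanSpace ℝ (Fin (m + 1)), (∀ i, |a.ofLp i| ≤ 1) ∧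
      ENNReal.ofReal lam * volume (tube δ a (dir v)) ≤
        volume (locSet E' z ∩ tube δ a (dir v))} with hA
  have hvA : ∀ z, volume (A z) ≤ K * volume (locSet E' z) ^ β := fun z =>
    h δ hδ0 hδ1 (locSet E' z) (measurableSet_locSet hmE' z) lam hl0 hl1 (A z) fun v hv => hv
  have hsub : {e : Metric.sphere (0 : EuclideanSpace ℝ (Fin (m + 1))) 1 |
      0 < (U e.1).ofLp (Fin.last m) ∧
        (∀ i, |(U e.1).ofLp i| ≤ (U e.1).ofLp (Fin.last m)) ∧
        ∃ a, ENNReal.ofReal lam * volume (tube δ a e.1) ≤ volume (E ∩ tube δ a e.1)} ⊆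
      ⋃ z, {e | 0 < (U e.1).ofLp (Fin.last m) ∧ slope (U e.1) ∈ toMeasurable volume (A z)} := by
    rintro e ⟨he1, he2, a, ha⟩
    have hne : ‖U e.1‖ = 1 := by
      rw [LinearIsometryEquiv.norm_map]
      simp
    have hdir := dir_slope hne he1
    set z : Fin (m + 1) → ℤ := fun i => ⌊(U a).ofLp i⌋ with hz
    rw [mem_iUnion]
    refine ⟨z, he1, subset_toMeasurable _ _ ?_⟩
    set b := U a - zvec z with hb
    have hab : U a = b + zvec z := by rw [hb]; abel
    have hb1 : ∀ i, |b.ofLp i| ≤ 1 := by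
      intro i
      have h1 : b.ofLp i = (U a).ofLp i - ⌊(U a).ofLp i⌋ := by
        rw [hb, PiLp.sub_apply, zvec_apply]
      rw [h1, abs_of_nonneg (by linarith [Int.floor_le ((U a).ofLp i)])]
      linarith [Int.lt_floor_add_one ((U a).ofLp i)]
    refine ⟨fun i => ?_, b, hb1, ?_⟩
    · rw [slope, abs_div, abs_of_pos he1]
      exact div_le_one_of_le₀ (he2 _) he1.le
    · rw [hdir]
      have ht1 : tube δ a e.1 = U ⁻¹' tube δ (U a) (U e.1) := by
        ext x
        exact (mem_tube_map U δ a e.1 x).symm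
      have ht2 : tube δ b (U e.1) = (fun x => x + zvec z) ⁻¹' tube δ (U a) (U e.1) := by
        ext x
        rw [mem_preimage, hab]
        exact (mem_tube_add δ (zvec z) b (U e.1) x).symm
      have hv1 : volume (tube δ a e.1) = volume (tube δ b (U e.1)) := by
        rw [ht1, hvU, ht2]
        exact (measure_preimage_add_right _ _ _).symm
      have hv2 : volume (E ∩ tube δ a e.1) ≤ volume (locSet E' z ∩ tube δ b (U e.1)) := by
        have h1 : E ∩ tube δ a e.1 = U ⁻¹' (E' ∩ tube δ (U a) (U e.1)) := by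
          rw [preimage_inter, ← ht1, hE', ← preimage_comp]
          congr 1
          ext x
          simp
        have h2 : (fun x => x + zvec z) ⁻¹' (E' ∩ tube δ (U a) (U e.1)) ⊆
            locSet E' z ∩ tube δ b (U e.1) := by
          rintro x ⟨hx1, hx2⟩
          have hx3 : x ∈ tube δ b (U e.1) := by
            rw [ht2]; exact hx2
          exact ⟨⟨fun i => tube_subset_box hδ1.le hb1 hne hx3 i, hx1⟩, hx3⟩
        calc volume (E ∩ tube δ a e.1) = volume (E' ∩ tube δ (U a) (U e.1)) := by rw [h1, hvU]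
          _ = volume ((fun x => x + zvec z) ⁻¹' (E' ∩ tube δ (U a) (U e.1))) :=
              (measure_preimage_add_right _ _ _).symm
          _ ≤ _ := measure_mono h2
      rw [← hv1]
      exact ha.trans hv2
  calc _ ≤ (volume : Measure (EuclideanSpace ℝ (Fin (m + 1)))).toSphere
        (⋃ z, {e | 0 < (U e.1).ofLp (Fin.last m) ∧
          slope (U e.1) ∈ toMeasurable volume (A z)}) := measure_mono hsub
    _ ≤ ∑' z, (volume : Measure (EuclideanSpace ℝ (Fin (m + 1)))).toSphere
        {e | 0 < (U e.1).ofLp (Fin.last m) ∧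
          slope (U e.1) ∈ toMeasurable volume (A z)} := measure_iUnion_le _
    _ ≤ ∑' z, ((m + 1 : ℕ) : ENNReal) * (K * volume (locSet E' z) ^ β) := by
        refine ENNReal.tsum_le_tsum fun z => ?_
        refine (toSphere_slope_le U (measurableSet_toMeasurable _ _)).trans ?_
        rw [measure_toMeasurable]
        exact mul_le_mul_right (hvA z) _
    _ = ((m + 1 : ℕ) : ENNReal) * (K * ∑' z, volume (locSet E' z) ^ β) := by
        rw [ENNReal.tsum_mul_left, ENNReal.tsum_mul_left]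
    _ ≤ _ := by
        refine mul_le_mul_right (mul_le_mul_right ?_ _) _
        refine (tsum_rpow_le _ hβ).trans (ENNReal.rpow_le_rpow ?_ (by linarith))
        rw [← hvE']
        exact tsum_locSet hmE'

/-- swapping a coordinate with the last one, possibly with a sign -/
noncomputable def swapIso {m : ℕ} (i : Fin (m + 1)) (b : Bool) :
    EuclideanSpace ℝ (Fin (m + 1)) ≃ₗᵢ[ℝ] EuclideanSpace ℝ (Fin (m + 1)) :=
  if b then LinearIsometryEquiv.piLpCongrLeft 2 ℝ ℝ (Equiv.swap i (Fin.last m))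
  else (LinearIsometryEquiv.piLpCongrLeft 2 ℝ ℝ (Equiv.swap i (Fin.last m))).trans
    (LinearIsometryEquiv.neg ℝ)

lemma swapIso_true {m : ℕ} (i j : Fin (m + 1)) (x : EuclideanSpace ℝ (Fin (m + 1))) :
    (swapIso i true x).ofLp j = x.ofLp (Equiv.swap i (Fin.last m) j) := by
  simp [swapIso, LinearIsometryEquiv.piLpCongrLeft_apply, Equiv.piCongrLeft'_apply]

lemma swapIso_false {m : ℕ} (i j : Fin (m + 1)) (x : EuclideanSpace ℝ (Fin (m + 1))) :
    (swapIso i false x).ofLp j = -x.ofLp (Equiv.swap i (Fin.last m) j) := by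
  simp [swapIso, LinearIsometryEquiv.piLpCongrLeft_apply, Equiv.piCongrLeft'_apply]

lemma exists_swapIso {m : ℕ} {x : EuclideanSpace ℝ (Fin (m + 1))} (hx : x ≠ 0) :
    ∃ (i : Fin (m + 1)) (b : Bool), 0 < (swapIso i b x).ofLp (Fin.last m) ∧
      ∀ j, |(swapIso i b x).ofLp j| ≤ (swapIso i b x).ofLp (Fin.last m) := by
  obtain ⟨i, -, hi⟩ := Finset.exists_max_image Finset.univ (fun i => |x.ofLp i|)
    ⟨0, Finset.mem_univ _⟩
  have hpos : 0 < |x.ofLp i| := by
    rw [abs_pos]
    intro h0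
    apply hx
    ext j
    have := hi j (Finset.mem_univ _)
    rw [h0, abs_zero] at this
    simpa using this
  rcases le_or_gt 0 (x.ofLp i) with hs | hs
  · refine ⟨i, true, ?_, fun j => ?_⟩
    · rw [swapIso_true, Equiv.swap_apply_right]
      rwa [abs_of_nonneg hs] at hpos
    · rw [swapIso_true, swapIso_true, Equiv.swap_apply_right, ← abs_of_nonneg hs]
      exact hi _ (Finset.mem_univ _)
  · refine ⟨i, false, ?_, fun j => ?_⟩
    · rw [swapIso_false, Equiv.swap_apply_right]
      linarith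
    · rw [swapIso_false, swapIso_false, Equiv.swap_apply_right, abs_neg, ← abs_of_neg hs]
      exact hi _ (Finset.mem_univ _)

/-- T3 -/
theorem rwt_of_locRWT {β C : ℝ} (hβ : 1 ≤ β) (hC : 0 ≤ C) {m : ℕ} (h : LocRWT m β C) :
    ∃ C' : ℝ, 0 ≤ C' ∧ RWT (m + 1) β C' := by
  set D : ℝ := 2 * (m + 1) * (m + 1) * C * ((11 : ℝ) ^ (m + 1)) ^ β with hD
  have hD0 : 0 ≤ D := by positivity
  refine ⟨C + D, by positivity, ?_⟩
  intro δ hδ0 hδ1 E hE lam hl0 hl1
  set S : Set (Metric.sphere (0 : EuclideanSpace ℝ (Fin (m + 1))) 1) :=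
    {e | ENNReal.ofReal lam < kakeyaMax δ (E.indicator 1) e.1} with hS
  set P : Fin (m + 1) × Bool → Set (Metric.sphere (0 : EuclideanSpace ℝ (Fin (m + 1))) 1) :=
    fun q => {e | 0 < (swapIso q.1 q.2 e.1).ofLp (Fin.last m) ∧
        (∀ i, |(swapIso q.1 q.2 e.1).ofLp i| ≤ (swapIso q.1 q.2 e.1).ofLp (Fin.last m)) ∧
        ∃ a, ENNReal.ofReal lam * volume (tube δ a e.1) ≤ volume (E ∩ tube δ a e.1)} with hP
  have hsub : S ⊆ ⋃ q, P q := by
    intro e he
    obtain ⟨a, ha⟩ := lt_iSup_iff.1 (show ENNReal.ofReal lam < ⨆ a, _ from he)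
    have hint : ∫⁻ x in tube δ a e.1, E.indicator 1 x = volume (E ∩ tube δ a e.1) := by
      rw [lintegral_indicator_one hE, Measure.restrict_apply hE]
    rw [hint] at ha
    have hne : e.1 ≠ 0 := by
      intro h0
      have : ‖e.1‖ = 1 := by simp
      rw [h0, norm_zero] at this
      exact zero_ne_one this
    obtain ⟨i, b, h1, h2⟩ := exists_swapIso hne
    exact mem_iUnion.2 ⟨(i, b), h1, h2, a, ENNReal.mul_le_of_le_div ha.le⟩
  have hn : ((m + 1 : ℕ) : ℝ) - 1 = m := by push_cast; ring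
  have hr : 0 ≤ δ ^ (-(m * (β - 1))) := by positivity
  calc _ ≤ (volume : Measure (EuclideanSpace ℝ (Fin (m + 1)))).toSphere (⋃ q, P q) :=
        measure_mono hsub
    _ ≤ ∑ q, (volume : Measure (EuclideanSpace ℝ (Fin (m + 1)))).toSphere (P q) := by
        exact measure_iUnion_fintype_le _ _
    _ ≤ ∑ _q : Fin (m + 1) × Bool, ((m + 1 : ℕ) : ENNReal) *
        (ENNReal.ofReal (C * lam ^ (-C) * δ ^ (-(m * (β - 1)))) *
        ((11 : ENNReal) ^ (m + 1) * volume E) ^ β) :=
        Finset.sum_le_sum fun q _ => sphere_part hβ h hδ0 hδ1 hE hl0 hl1 _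
    _ = ENNReal.ofReal (D * lam ^ (-C) * δ ^ (-(m * (β - 1)))) * volume E ^ β := by
        rw [Finset.sum_const, nsmul_eq_mul, Finset.card_univ, Fintype.card_prod, Fintype.card_fin,
          Fintype.card_bool, ENNReal.mul_rpow_of_nonneg _ _ (by linarith : 0 ≤ β)]
        have e1 : ((11 : ENNReal) ^ (m + 1)) ^ β = ENNReal.ofReal (((11 : ℝ) ^ (m + 1)) ^ β) := by
          rw [← ENNReal.ofReal_rpow_of_nonneg (by positivity) (by linarith),
            ENNReal.ofReal_pow (by norm_num)]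
          norm_num
        have e2 : (((m + 1) * 2 : ℕ) : ENNReal) = ENNReal.ofReal (2 * (m + 1)) := by
          rw [← ENNReal.ofReal_natCast]
          congr 1
          push_cast
          ring
        have e3 : ((m + 1 : ℕ) : ENNReal) = ENNReal.ofReal (m + 1) := by
          rw [← ENNReal.ofReal_natCast]
          push_cast
          rfl
        rw [e1, e2, e3, ← mul_assoc, ← mul_assoc, ← mul_assoc,
          ← ENNReal.ofReal_mul (by positivity), ← ENNReal.ofReal_mul (by positivity),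
          ← ENNReal.ofReal_mul (by positivity)]
        congr 2
        rw [hD]
        ring
    _ ≤ _ := by
        rw [hn]
        refine mul_le_mul_left (ENNReal.ofReal_le_ofReal ?_) _
        refine mul_le_mul_of_nonneg_right ?_ hr
        have h1 : lam ^ (-C) ≤ lam ^ (-(C + D)) :=
          Real.rpow_le_rpow_of_exponent_ge hl0 hl1 (by linarith)
        have h2 : 0 ≤ lam ^ (-(C + D)) := by positivity
        have h3 : 0 ≤ lam ^ (-C) := by positivity
        nlinarith [mul_le_mul_of_nonneg_left h1 hD0, mul_nonneg hC h2]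

end Vale.Agent.P127
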