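import Vale.Agent.P127.Scale

/-!
# P127: the core inequality applied at one scale
-/

namespace Vale.Agent.P127

open MeasureTheory Finset

/-- the core statement with fixed constants -/
def CoreAt (β : ℝ) (m : ℕ) (B C : ℝ) : Prop :=
    ∀ (N : ℕ), 1 ≤ N → ∀ (Λ : Type) [Fintype Λ] [Nonempty Λ] (X V : Λ → Fin m → ℝ),
      (∀ l c, |X l c| ≤ B * N) → (∀ l c, |V l c| ≤ B * N) →
      Function.Injective (fun l => fun c => ⌊V l c⌋) →
      ∀ (E : Λ → Finset ℕ), (∀ l, E l ⊆ Finset.range N) →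
      ∀ (lam : ℝ), 0 < lam → lam ≤ 1 → (∀ l, lam * N ≤ ((E l).card : ℝ)) →
      ∀ (S : ℕ → Finset (Fin m → ℤ)),
      (∀ l, ∀ i ∈ E l, (fun c => ⌊X l c + ((i : ℝ) / N) * V l c⌋) ∈ S i) →
      Real.log (Fintype.card Λ) ≤
        β * Real.log ((∑ i ∈ Finset.range N, ((S i).card : ℝ)) / (lam * N))
          + C * (1 + Real.log (1 / lam))

lemma coord_le {n : ℕ} (x y : EuclideanSpace ℝ (Fin n)) (i : Fin n) :
    |x.ofLp i - y.ofLp i| ≤ dist x y := by
  have h := PiLp.norm_apply_le (x - y) i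
  rw [dist_eq_norm]
  simpa using h

/-- the discretised heights -/
noncomputable def hy (j : ℤ) (c : ℝ) (N i : ℕ) : ℝ := j * c + i * (c / N)

open Classical in
/-- good heights -/
noncomputable def Eset (j : ℤ) (c : ℝ) (N : ℕ) (G : Set ℝ) : Finset ℕ :=
  (Finset.range N).filter (fun i => ∃ y ∈ Set.Icc (hy j c N i) (hy j c N i + c / N), y ∈ G)

open Classical in
/-- cells near the balls at a given height -/
noncomputable def Sset {m : ℕ} (j : ℤ) (c : ℝ) (N : ℕ) (Cl : Finset ℕ)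
    (xc : ℕ → EuclideanSpace ℝ (Fin (m + 1))) (i : ℕ) : Finset (Fin m → ℤ) :=
  (Cl.filter (fun n => |(xc n).ofLp (Fin.last m) - hy j c N i| ≤ 2 / N)).biUnion
      (fun n => Fintype.piFinset (fun c' => Finset.Icc
        (⌊(N : ℝ) * (xc n).ofLp (Fin.castSucc c')⌋ - 3)
        (⌊(N : ℝ) * (xc n).ofLp (Fin.castSucc c')⌋ + 3)))

lemma ecard {N : ℕ} (hN : 1 ≤ N) {c : ℝ} (hc : 0 < c) (j : ℤ) {lam : ℝ} (G : Set ℝ)
    (hGI : G ⊆ Set.Icc (j * c) ((j + 1) * c))
    (hG : ENNReal.ofReal (c * lam) ≤ volume G) :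
    lam * N ≤ ((Eset j c N G).card : ℝ) := by
  classical
  have hNpos : (0 : ℝ) < N := by exact_mod_cast hN
  have hcN : 0 < c / N := by positivity
  have h1 : G ⊆ ⋃ i ∈ Eset j c N G, Set.Icc (hy j c N i) (hy j c N i + c / N) := by
    intro y hyG
    obtain ⟨hy1, hy2⟩ := hGI hyG
    -- index of the height
    set u := (y - j * c) / (c / N) with hu
    have hu0 : 0 ≤ u := div_nonneg (by linarith) hcN.le
    have huN : u ≤ N := by
      rw [hu, div_le_iff₀ hcN]
      have : (N : ℝ) * (c / N) = c := by field_simp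
      linarith
    have hyu : y = j * c + u * (c / N) := by
      rw [hu, div_mul_cancel₀ _ hcN.ne']
      ring
    simp only [Set.mem_iUnion]
    by_cases hlast : u < N
    · have h2 := Nat.floor_le hu0
      have h3 := Nat.lt_floor_add_one u
      have hmem : y ∈ Set.Icc (hy j c N ⌊u⌋₊) (hy j c N ⌊u⌋₊ + c / N) := by
        unfold hy
        rw [hyu]
        constructor
        · nlinarith
        · nlinarith
      refine ⟨⌊u⌋₊, ?_, hmem⟩
      rw [Eset, Finset.mem_filter, Finset.mem_range]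
      exact ⟨(Nat.floor_lt hu0).2 hlast, y, hmem, hyG⟩
    · have huN' : u = N := le_antisymm huN (not_lt.1 hlast)
      have hN1' : ((N - 1 : ℕ) : ℝ) = N - 1 := by
        rw [Nat.cast_sub hN]; simp
      have hmem : y ∈ Set.Icc (hy j c N (N - 1)) (hy j c N (N - 1) + c / N) := by
        unfold hy
        rw [hyu, huN', hN1']
        constructor
        · nlinarith
        · nlinarith
      refine ⟨N - 1, ?_, hmem⟩
      rw [Eset, Finset.mem_filter, Finset.mem_range]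
      exact ⟨by omega, y, hmem, hyG⟩
  have h3 : volume G ≤ ENNReal.ofReal (((Eset j c N G).card : ℝ) * (c / N)) := by
    refine (measure_mono h1).trans ?_
    refine (measure_biUnion_finset_le _ _).trans ?_
    have h4 : ∀ i ∈ Eset j c N G, volume (Set.Icc (hy j c N i) (hy j c N i + c / N)) ≤
        ENNReal.ofReal (c / N) := by
      intro i _
      rw [Real.volume_Icc]
      simp
    refine (Finset.sum_le_sum h4).trans ?_
    rw [Finset.sum_const, nsmul_eq_mul, ENNReal.ofReal_mul (by positivity)]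
    simp
  have h5 := hG.trans h3
  rw [ENNReal.ofReal_le_ofReal_iff (by positivity)] at h5
  have h6 : c * lam * N ≤ ((Eset j c N G).card : ℝ) * (c / N) * N :=
    mul_le_mul_of_nonneg_right h5 hNpos.le
  have h7 : ((Eset j c N G).card : ℝ) * (c / N) * N = ((Eset j c N G).card : ℝ) * c := by
    field_simp
  rw [h7] at h6
  have h8 : c * (lam * N) ≤ c * ((Eset j c N G).card : ℝ) := by linarith
  exact le_of_mul_le_mul_left h8 hc

lemma smem {m N : ℕ} (hN : 1 ≤ N) {c : ℝ} (hc : 0 < c) (hc1 : c ≤ 1) (j : ℤ)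
    (Cl : Finset ℕ) (xc : ℕ → EuclideanSpace ℝ (Fin (m + 1))) (ρ : ℕ → ℝ)
    (hρ : ∀ n ∈ Cl, ρ n ≤ 1 / N) (x v : Fin m → ℝ) (hv : ∀ i, 0 ≤ v i ∧ v i ≤ 1) (i : ℕ)
    (hi : i ∈ Eset j c N {y : ℝ | y ∈ Set.Icc (j * c) ((j + 1) * c) ∧
      ∃ n ∈ Cl, pt x v y ∈ Metric.closedBall (xc n) (ρ n)}) :
    (fun c' => ⌊N * (x c' + j * c * v c') + ((i : ℝ) / N) * (c * N * v c')⌋) ∈
      Sset j c N Cl xc i := by
  classical
  have hNpos : (0 : ℝ) < N := by exact_mod_cast hN
  rw [Eset, Finset.mem_filter] at hi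
  obtain ⟨_, y, ⟨hy1, hy2⟩, hyG⟩ := hi
  obtain ⟨_, n, hn, hball⟩ := hyG
  rw [Metric.mem_closedBall] at hball
  have hd : dist (pt x v y) (xc n) ≤ 1 / N := hball.trans (hρ n hn)
  have hcN : c / N ≤ 1 / N := div_le_div_of_nonneg_right hc1 hNpos.le
  have e : (2 : ℝ) / N = 1 / N + 1 / N := by ring
  rw [Sset, Finset.mem_biUnion]
  refine ⟨n, ?_, ?_⟩
  · rw [Finset.mem_filter]
    refine ⟨hn, ?_⟩
    have h1 := (coord_le _ _ (Fin.last m)).trans hd
    rw [pt_last, abs_le] at h1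
    rw [abs_le, e]
    constructor <;> linarith [h1.1, h1.2]
  · rw [Fintype.mem_piFinset]
    intro c'
    have h1 := (coord_le _ _ (Fin.castSucc c')).trans hd
    rw [pt_castSucc] at h1
    have hv := hv c'
    have e1 : N * (x c' + j * c * v c') + ((i : ℝ) / N) * (c * N * v c') =
        N * (x c' + hy j c N i * v c') := by
      unfold hy
      field_simp
      ring
    have h2 : |(N : ℝ) * (x c' + hy j c N i * v c') -
        N * (xc n).ofLp (Fin.castSucc c')| ≤ 2 := by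
      rw [← mul_sub, abs_mul, abs_of_pos hNpos]
      have h3 : |x c' + hy j c N i * v c' - (xc n).ofLp (Fin.castSucc c')| ≤ 2 / N := by
        have e2 : x c' + hy j c N i * v c' - (xc n).ofLp (Fin.castSucc c') =
            (x c' + y * v c' - (xc n).ofLp (Fin.castSucc c')) -
              (y - hy j c N i) * v c' := by ring
        rw [e2]
        refine (abs_sub _ _).trans ?_
        have h4 : |(y - hy j c N i) * v c'| ≤ 1 / N := by
          rw [abs_mul, abs_of_nonneg (by linarith : 0 ≤ y - hy j c N i), abs_of_nonneg hv.1]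
          calc (y - hy j c N i) * v c' ≤ (c / N) * 1 :=
                mul_le_mul (by linarith) hv.2 hv.1 (by positivity)
            _ ≤ 1 / N := by linarith
        rw [e]
        linarith
      calc (N : ℝ) * |x c' + hy j c N i * v c' - (xc n).ofLp (Fin.castSucc c')| ≤
            N * (2 / N) := mul_le_mul_of_nonneg_left h3 hNpos.le
        _ = 2 := by field_simp
    rw [e1, Finset.mem_Icc]
    rw [abs_le] at h2
    constructor
    · rw [Int.le_floor]
      push_cast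
      have := Int.floor_le ((N : ℝ) * (xc n).ofLp (Fin.castSucc c'))
      linarith [h2.1]
    · rw [← Int.lt_add_one_iff, Int.floor_lt]
      push_cast
      have := Int.lt_floor_add_one ((N : ℝ) * (xc n).ofLp (Fin.castSucc c'))
      linarith [h2.2]

lemma ssum {m N : ℕ} (hN : 1 ≤ N) {c : ℝ} (hc : 0 < c) (j : ℤ)
    (Cl : Finset ℕ) (xc : ℕ → EuclideanSpace ℝ (Fin (m + 1))) :
    (∑ i ∈ Finset.range N, ((Sset j c N Cl xc i).card : ℝ)) ≤
      Cl.card * 7 ^ m * (4 / c + 1) := by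
  classical
  have hNpos : (0 : ℝ) < N := by exact_mod_cast hN
  have h1 : ∀ i ∈ Finset.range N, ((Sset j c N Cl xc i).card : ℝ) ≤
      ∑ n ∈ Cl, (if |(xc n).ofLp (Fin.last m) - hy j c N i| ≤ 2 / N then (7 : ℝ) ^ m
        else 0) := by
    intro i _
    have h2 : (Sset j c N Cl xc i).card ≤
        ∑ n ∈ Cl.filter (fun n => |(xc n).ofLp (Fin.last m) - hy j c N i| ≤ 2 / N),
        7 ^ m := by
      rw [Sset]
      refine Finset.card_biUnion_le.trans (Finset.sum_le_sum fun n _ => ?_)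
      rw [Fintype.card_piFinset]
      have h3 : ∀ c' : Fin m, (Finset.Icc
        (⌊(N : ℝ) * (xc n).ofLp (Fin.castSucc c')⌋ - 3)
        (⌊(N : ℝ) * (xc n).ofLp (Fin.castSucc c')⌋ + 3)).card = 7 := by
        intro c'
        rw [Int.card_Icc]
        have : ⌊(N : ℝ) * (xc n).ofLp (Fin.castSucc c')⌋ + 3 + 1 -
          (⌊(N : ℝ) * (xc n).ofLp (Fin.castSucc c')⌋ - 3) = 7 := by ring
        rw [this]
        rfl
      simp only [h3, Finset.prod_const, Finset.card_univ, Fintype.card_fin]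
      exact le_rfl
    have h4 : ((Sset j c N Cl xc i).card : ℝ) ≤ ((∑ n ∈ Cl.filter
        (fun n => |(xc n).ofLp (Fin.last m) - hy j c N i| ≤ 2 / N), 7 ^ m : ℕ) : ℝ) := by
      exact_mod_cast h2
    refine h4.trans (le_of_eq ?_)
    push_cast
    rw [Finset.sum_filter]
  refine (Finset.sum_le_sum h1).trans ?_
  rw [Finset.sum_comm]
  have h5 : ∀ n ∈ Cl, ∑ i ∈ Finset.range N,
      (if |(xc n).ofLp (Fin.last m) - hy j c N i| ≤ 2 / N then (7 : ℝ) ^ m else 0) ≤
      7 ^ m * (4 / c + 1) := by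
    intro n _
    rw [← Finset.sum_filter, Finset.sum_const, nsmul_eq_mul, mul_comm]
    refine mul_le_mul_of_nonneg_left ?_ (by positivity)
    refine card_interval _ (((xc n).ofLp (Fin.last m) - j * c) * (N / c) - 2 / c) (4 / c)
      (by positivity) ?_
    intro i hi
    have h6 := (Finset.mem_filter.1 hi).2
    unfold hy at h6
    rw [abs_le] at h6
    have hNc : (0 : ℝ) < N / c := by positivity
    have h7 := mul_le_mul_of_nonneg_right h6.1 hNc.le
    have h8 := mul_le_mul_of_nonneg_right h6.2 hNc.le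
    have e1 : -(2 / (N : ℝ)) * (N / c) = -(2 / c) := by field_simp
    have e2 : (2 / (N : ℝ)) * (N / c) = 2 / c := by field_simp
    have e3 : ((xc n).ofLp (Fin.last m) - (j * c + i * (c / N))) * (N / c) =
        ((xc n).ofLp (Fin.last m) - j * c) * (N / c) - i := by
      field_simp
      ring
    rw [e1, e3] at h7
    rw [e2, e3] at h8
    have e4 : (4 : ℝ) / c = 2 / c + 2 / c := by ring
    rw [e4]
    constructor <;> linarith
  refine (Finset.sum_le_sum h5).trans (le_of_eq ?_)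
  rw [Finset.sum_const, nsmul_eq_mul]
  ring

theorem one_scale {β : ℝ} {m : ℕ} {B C : ℝ} (hcore : CoreAt β m B C) (hβ : 0 ≤ β)
    {N : ℕ} (hN : 1 ≤ N) {c : ℝ} (hc : 0 < c) (hc1 : c ≤ 1) (j : ℤ) {R : ℝ} (hR : 0 ≤ R)
    (hB : R + |(j : ℝ)| * c + 1 ≤ B) {lam : ℝ} (hlam : 0 < lam) (hlam1 : lam ≤ 1)
    (Cl : Finset ℕ) (xc : ℕ → EuclideanSpace ℝ (Fin (m + 1))) (ρ : ℕ → ℝ)
    (hρ : ∀ n ∈ Cl, ρ n ≤ 1 / N)
    (A : Set (Fin m → ℝ)) (hA : A ⊆ Set.Icc 0 1) (xv : (Fin m → ℝ) → (Fin m → ℝ))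
    (hxv : ∀ v ∈ A, ∀ i, |xv v i| ≤ R) {w : ℝ} (hw : 0 < w)
    (hwA : ENNReal.ofReal w ≤ volume A)
    (hG : ∀ v ∈ A, ENNReal.ofReal (c * lam) ≤ volume {y : ℝ | y ∈ Set.Icc (j * c) ((j + 1) * c) ∧
      ∃ n ∈ Cl, pt (xv v) v y ∈ Metric.closedBall (xc n) (ρ n)}) :
    Real.log (w * (c * N) ^ m) ≤
      β * Real.log ((Cl.card * 7 ^ m * (4 / c + 1)) / (lam * N)) +
        C * (1 + Real.log (1 / lam)) := by
  classical
  have hNpos : (0 : ℝ) < N := by exact_mod_cast hN
  have hq : 0 < c * N := by positivity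
  obtain ⟨Zs, hZ1, hZ2⟩ := exists_cubes A hA (c * N) hq hwA
  choose! vz hvA hvz using hZ1
  have hcardpos : (0 : ℝ) < Zs.card := lt_of_lt_of_le (by positivity) hZ2
  have hZne : Zs.Nonempty := by
    rw [← Finset.card_pos]
    exact_mod_cast hcardpos
  have hne : Nonempty {z // z ∈ Zs} := ⟨⟨hZne.choose, hZne.choose_spec⟩⟩
  have hv01 : ∀ z : {z // z ∈ Zs}, ∀ i, 0 ≤ vz z.1 i ∧ vz z.1 i ≤ 1 := fun z i =>
    ⟨(hA (hvA z.1 z.2)).1 i, (hA (hvA z.1 z.2)).2 i⟩
  have hXB : ∀ (z : {z // z ∈ Zs}) (i : Fin m),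
      |(N : ℝ) * (xv (vz z.1) i + j * c * vz z.1 i)| ≤ B * N := by
    intro z i
    have h1 := hxv _ (hvA z.1 z.2) i
    have h2 := hv01 z i
    rw [abs_mul, abs_of_pos hNpos, mul_comm]
    refine mul_le_mul_of_nonneg_right ?_ hNpos.le
    refine (abs_add_le _ _).trans ?_
    have h3 : |(j : ℝ) * c * vz z.1 i| ≤ |(j : ℝ)| * c := by
      rw [abs_mul, abs_mul, abs_of_pos hc, abs_of_nonneg h2.1]
      have : 0 ≤ |(j : ℝ)| * c := by positivity
      nlinarith [h2.2]
    linarith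
  have hVB : ∀ (z : {z // z ∈ Zs}) (i : Fin m), |c * N * vz z.1 i| ≤ B * N := by
    intro z i
    have h2 := hv01 z i
    rw [abs_of_nonneg (mul_nonneg hq.le h2.1)]
    have h3 : c * N * vz z.1 i ≤ c * N * 1 := mul_le_mul_of_nonneg_left h2.2 hq.le
    have h4 : 0 ≤ |(j : ℝ)| * c := by positivity
    have h5 : c * N ≤ B * N := mul_le_mul_of_nonneg_right (by linarith) hNpos.le
    linarith
  have hinj : Function.Injective (fun z : {z // z ∈ Zs} => fun i => ⌊c * N * vz z.1 i⌋) := by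
    intro z z' h
    apply Subtype.ext
    funext i
    have h1 := congrFun h i
    simp only at h1
    rw [hvz z.1 z.2 i, hvz z'.1 z'.2 i] at h1
    exact h1
  have hEcard : ∀ z : {z // z ∈ Zs}, lam * N ≤ ((Eset j c N
      {y : ℝ | y ∈ Set.Icc (j * c) ((j + 1) * c) ∧
      ∃ n ∈ Cl, pt (xv (vz z.1)) (vz z.1) y ∈ Metric.closedBall (xc n) (ρ n)}).card : ℝ) :=
    fun z => ecard hN hc j _ (fun y hy => hy.1) (hG _ (hvA z.1 z.2))
  have hSmem : ∀ z : {z // z ∈ Zs}, ∀ i ∈ Eset j c N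
      {y : ℝ | y ∈ Set.Icc (j * c) ((j + 1) * c) ∧
      ∃ n ∈ Cl, pt (xv (vz z.1)) (vz z.1) y ∈ Metric.closedBall (xc n) (ρ n)},
      (fun c' => ⌊(N : ℝ) * (xv (vz z.1) c' + j * c * vz z.1 c') +
        ((i : ℝ) / N) * (c * N * vz z.1 c')⌋) ∈ Sset j c N Cl xc i :=
    fun z i hi => smem hN hc hc1 j Cl xc ρ hρ _ _ (hv01 z) i hi
  have main := hcore N hN {z // z ∈ Zs}
    (fun z i => (N : ℝ) * (xv (vz z.1) i + j * c * vz z.1 i)) (fun z i => c * N * vz z.1 i)
    hXB hVB hinj _ (fun z => Finset.filter_subset _ _) lam hlam hlam1 hEcard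
    (Sset j c N Cl xc) hSmem
  have hSsum := ssum hN hc j Cl xc
  have hSpos : 0 < ∑ i ∈ Finset.range N, ((Sset j c N Cl xc i).card : ℝ) := by
    obtain ⟨z⟩ := hne
    have h1 := lt_of_lt_of_le (by positivity) (hEcard z)
    have h2 := Finset.card_pos.1 (Nat.cast_pos.1 h1)
    obtain ⟨i, hi⟩ := h2
    refine Finset.sum_pos' (fun i _ => by positivity) ⟨i, (Finset.mem_filter.1 hi).1, ?_⟩
    exact Nat.cast_pos.2 (Finset.card_pos.2 ⟨_, hSmem z i hi⟩)
  -- conclusion
  have h1 : Real.log (w * (c * N) ^ m) ≤ Real.log (Fintype.card {z // z ∈ Zs}) := by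
    refine Real.log_le_log (by positivity) ?_
    rw [Fintype.card_coe]
    exact hZ2
  have h2 : Real.log ((∑ i ∈ Finset.range N, ((Sset j c N Cl xc i).card : ℝ)) / (lam * N)) ≤
      Real.log ((Cl.card * 7 ^ m * (4 / c + 1)) / (lam * N)) := by
    refine Real.log_le_log (by positivity) ?_
    exact div_le_div_of_nonneg_right hSsum (by positivity)
  have h3 := mul_le_mul_of_nonneg_left h2 hβ
  linarith

end Vale.Agent.P127
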