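import Vale.Agent.P127.Cover

/-!
# P127: parametrisation of the segments of a Kakeya set by the last coordinate
-/

namespace Vale.Agent.P127

open MeasureTheory Finset

variable {m : ℕ}

/-- the point `(x + y v, y)` -/
noncomputable def pt (x v : Fin m → ℝ) (y : ℝ) : EuclideanSpace ℝ (Fin (m + 1)) :=
  WithLp.toLp 2 (Fin.snoc (α := fun _ => ℝ) (fun i => x i + y * v i) y)

lemma pt_castSucc (x v : Fin m → ℝ) (y : ℝ) (i : Fin m) :
    (pt x v y).ofLp (Fin.castSucc i) = x i + y * v i := by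
  simp [pt]

lemma pt_last (x v : Fin m → ℝ) (y : ℝ) : (pt x v y).ofLp (Fin.last m) = y := by
  simp [pt]

theorem exists_line {K : Set (EuclideanSpace ℝ (Fin (m + 1)))} (hK : IsKakeya (m + 1) K)
    (v : Fin m → ℝ) (hv : ∀ i, v i ∈ Set.Icc (0 : ℝ) 1) :
    ∃ (x : Fin m → ℝ) (y0 : ℝ),
      ∀ y ∈ Set.Icc y0 (y0 + 1 / Real.sqrt (m + 1)), pt x v y ∈ K := by
  set d : EuclideanSpace ℝ (Fin (m + 1)) :=
    WithLp.toLp 2 (Fin.snoc (α := fun _ => ℝ) v 1) with hd
  have hdc : ∀ i : Fin m, d.ofLp (Fin.castSucc i) = v i := fun i => by simp [hd]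
  have hdl : d.ofLp (Fin.last m) = 1 := by simp [hd]
  have hnorm : ‖d‖ ^ 2 = ∑ i, v i ^ 2 + 1 := by
    rw [EuclideanSpace.norm_eq, Real.sq_sqrt (Finset.sum_nonneg fun i _ => by positivity),
      Fin.sum_univ_castSucc]
    simp [hdc, hdl]
  have hsum0 : 0 ≤ ∑ i, v i ^ 2 := Finset.sum_nonneg fun i _ => by positivity
  have hsum1 : ∑ i, v i ^ 2 ≤ m := by
    calc ∑ i, v i ^ 2 ≤ ∑ _i : Fin m, (1 : ℝ) := by
          refine Finset.sum_le_sum fun i _ => ?_
          have := hv i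
          nlinarith [this.1, this.2]
      _ = m := by simp
  have hd1 : 1 ≤ ‖d‖ := by nlinarith [norm_nonneg d]
  have hd0 : 0 < ‖d‖ := by linarith
  have hd2 : ‖d‖ ≤ Real.sqrt (m + 1) := by
    rw [← Real.sqrt_sq hd0.le]
    exact Real.sqrt_le_sqrt (by rw [hnorm]; linarith)
  obtain ⟨a, ha⟩ := hK (‖d‖⁻¹ • d) (by
    rw [norm_smul, norm_inv, norm_norm, inv_mul_cancel₀ hd0.ne'])
  refine ⟨fun i => a.ofLp (Fin.castSucc i) - a.ofLp (Fin.last m) * v i, a.ofLp (Fin.last m), ?_⟩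
  intro y hy
  set y0 := a.ofLp (Fin.last m) with hy0
  have hs : 0 < Real.sqrt ((m : ℝ) + 1) := Real.sqrt_pos.2 (by positivity)
  have ht : (y - y0) * ‖d‖ ∈ Set.Icc (0 : ℝ) 1 := by
    constructor
    · exact mul_nonneg (by linarith [hy.1]) hd0.le
    · have h1 : y - y0 ≤ 1 / Real.sqrt (m + 1) := by linarith [hy.2]
      calc (y - y0) * ‖d‖ ≤ 1 / Real.sqrt (m + 1) * Real.sqrt (m + 1) :=
            mul_le_mul h1 hd2 hd0.le (by positivity)
        _ = 1 := by field_simp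
  have h := ha _ ht
  have e : a + ((y - y0) * ‖d‖) • (‖d‖⁻¹ • d) =
      pt (fun i => a.ofLp (Fin.castSucc i) - y0 * v i) v y := by
    rw [smul_smul, mul_assoc, mul_inv_cancel₀ hd0.ne', mul_one]
    ext i
    refine Fin.lastCases ?_ (fun i => ?_) i
    · rw [pt_last]
      simp [hdl, ← hy0]
    · rw [pt_castSucc]
      simp [hdc]
      ring
  rw [← e]
  exact h

end Vale.Agent.P127
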