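import Vale.Agent.P127.Param

/-!
# P127: selection of a scale and discretisation at one scale
-/

namespace Vale.Agent.P127

open MeasureTheory Finset

/-- weights of the scales -/
noncomputable def aw (k : ℕ) : ℝ := 1 / (((k : ℝ) + 1) * (k + 2))

lemma aw_pos (k : ℕ) : 0 < aw k := by unfold aw; positivity

lemma aw_le (k : ℕ) : aw k ≤ 1 := by
  unfold aw
  rw [div_le_one (by positivity)]
  have : (0 : ℝ) ≤ k := by positivity
  nlinarith

lemma aw_sum (n : ℕ) : ∑ k ∈ Finset.range n, aw k = 1 - 1 / ((n : ℝ) + 1) := by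
  induction n with
  | zero => simp
  | succ n ih =>
    rw [Finset.sum_range_succ, ih]
    unfold aw
    push_cast
    field_simp
    ring

lemma aw_tsum : ∑' k, ENNReal.ofReal (aw k) ≤ 1 := by
  refine ENNReal.tsum_le_of_sum_range_le fun n => ?_
  rw [← ENNReal.ofReal_sum_of_nonneg (fun i _ => (aw_pos i).le), aw_sum]
  refine ENNReal.ofReal_le_one.2 ?_
  have : (0 : ℝ) ≤ 1 / ((n : ℝ) + 1) := by positivity
  linarith

/-- weighted pigeonhole principle over the scales -/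
theorem pigeon {X : Type*} [MeasurableSpace X] (μ : Measure X) (S : Set X) (T : ℕ → Set X)
    (hS : S ⊆ ⋃ k, T k) {w : ℝ} (hw : 0 < w) (hwS : ENNReal.ofReal w ≤ μ S) :
    ∃ k, ENNReal.ofReal (w / 2 * aw k) ≤ μ (T k) := by
  by_contra hcon
  push Not at hcon
  have h1 : μ S ≤ ∑' k, μ (T k) := (measure_mono hS).trans (measure_iUnion_le T)
  have h2 : ∑' k, μ (T k) ≤ ∑' k, ENNReal.ofReal (w / 2 * aw k) :=
    ENNReal.tsum_le_tsum fun k => (hcon k).le
  have h3 : ∑' k, ENNReal.ofReal (w / 2 * aw k) ≤ ENNReal.ofReal (w / 2) := by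
    have h4 : ∀ k, ENNReal.ofReal (w / 2 * aw k) = ENNReal.ofReal (w / 2) * ENNReal.ofReal (aw k) :=
      fun k => ENNReal.ofReal_mul (by positivity)
    simp only [h4]
    rw [ENNReal.tsum_mul_left]
    calc ENNReal.ofReal (w / 2) * ∑' k, ENNReal.ofReal (aw k) ≤ ENNReal.ofReal (w / 2) * 1 := by
          gcongr
          exact aw_tsum
      _ = ENNReal.ofReal (w / 2) := mul_one _
  have h5 := hwS.trans (h1.trans (h2.trans h3))
  rw [ENNReal.ofReal_le_ofReal_iff (by positivity)] at h5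
  linarith

/-- number of integers in an interval -/
lemma card_interval (F : Finset ℕ) (u L : ℝ) (hL : 0 ≤ L)
    (h : ∀ i ∈ F, u ≤ (i : ℝ) ∧ (i : ℝ) ≤ u + L) : (F.card : ℝ) ≤ L + 1 := by
  classical
  have h1 : F.card ≤ (Finset.Icc ⌈u⌉ ⌊u + L⌋).card := by
    rw [← Finset.card_image_of_injective F (f := fun i : ℕ => (i : ℤ)) Nat.cast_injective]
    refine Finset.card_le_card ?_
    intro z hz
    obtain ⟨i, hi, rfl⟩ := Finset.mem_image.1 hz
    rw [Finset.mem_Icc]
    obtain ⟨h1, h2⟩ := h i hi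
    exact ⟨Int.ceil_le.2 (by exact_mod_cast h1), Int.le_floor.2 (by exact_mod_cast h2)⟩
  rw [Int.card_Icc] at h1
  have h2 : (F.card : ℝ) ≤ (((⌊u + L⌋ + 1 - ⌈u⌉).toNat : ℕ) : ℝ) := by exact_mod_cast h1
  refine h2.trans ?_
  have h3 : (((⌊u + L⌋ + 1 - ⌈u⌉).toNat : ℕ) : ℝ) = ((max (⌊u + L⌋ + 1 - ⌈u⌉) 0 : ℤ) : ℝ) := by
    rw [← Int.toNat_eq_max]
    push_cast
    rfl
  rw [h3]
  push_cast
  refine max_le ?_ (by linarith)
  have h4 := Int.floor_le (u + L)
  have h5 := Int.le_ceil u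
  linarith

variable {m : ℕ}

/-- the cube of slopes with index `z` -/
def cubez (q : ℝ) (z : Fin m → ℤ) : Set (Fin m → ℝ) := {v | ∀ i, ⌊q * v i⌋ = z i}

lemma volume_cubez (q : ℝ) (hq : 0 < q) (z : Fin m → ℤ) :
    volume (cubez q z) ≤ ENNReal.ofReal ((1 / q) ^ m) := by
  have h1 : cubez q z ⊆ Set.Icc (fun i => (z i : ℝ) / q) (fun i => ((z i : ℝ) + 1) / q) := by
    intro v hv
    rw [Set.mem_Icc]
    constructor
    · intro i
      have h2 := Int.floor_le (q * v i)
      rw [hv i] at h2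
      simp only
      rw [div_le_iff₀ hq]
      linarith
    · intro i
      have h2 := Int.lt_floor_add_one (q * v i)
      rw [hv i] at h2
      simp only
      rw [le_div_iff₀ hq]
      linarith
  refine (measure_mono h1).trans ?_
  rw [Real.volume_Icc_pi]
  have h2 : ∀ i : Fin m, ENNReal.ofReal (((z i : ℝ) + 1) / q - (z i : ℝ) / q) =
      ENNReal.ofReal (1 / q) := by
    intro i
    congr 1
    field_simp
    ring
  simp only [h2, Finset.prod_const, Finset.card_univ, Fintype.card_fin]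
  rw [ENNReal.ofReal_pow (by positivity)]

/-- the finite set of cubes that meet `A` -/
theorem exists_cubes (A : Set (Fin m → ℝ)) (hA : A ⊆ Set.Icc 0 1) (q : ℝ) (hq : 0 < q)
    {w : ℝ} (hwA : ENNReal.ofReal w ≤ volume A) :
    ∃ Zs : Finset (Fin m → ℤ), (∀ z ∈ Zs, ∃ v ∈ A, ∀ i, ⌊q * v i⌋ = z i) ∧
      w * q ^ m ≤ (Zs.card : ℝ) := by
  classical
  set Zs : Finset (Fin m → ℤ) := (Fintype.piFinset (fun _ => Finset.Icc (0 : ℤ) ⌊q⌋)).filter
    (fun z => ∃ v ∈ A, ∀ i, ⌊q * v i⌋ = z i) with hZs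
  refine ⟨Zs, fun z hz => (Finset.mem_filter.1 hz).2, ?_⟩
  have h1 : A ⊆ ⋃ z ∈ Zs, cubez q z := by
    intro v hv
    simp only [Set.mem_iUnion]
    refine ⟨fun i => ⌊q * v i⌋, ?_, fun i => rfl⟩
    rw [hZs, Finset.mem_filter]
    refine ⟨?_, v, hv, fun i => rfl⟩
    rw [Fintype.mem_piFinset]
    intro i
    have h2 := (hA hv).1 i
    have h3 := (hA hv).2 i
    simp only [Pi.zero_apply, Pi.one_apply] at h2 h3
    rw [Finset.mem_Icc]
    refine ⟨Int.floor_nonneg.2 (by positivity), Int.floor_le_floor ?_⟩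
    nlinarith
  have h2 : volume A ≤ ENNReal.ofReal ((Zs.card : ℝ) * (1 / q) ^ m) := by
    refine (measure_mono h1).trans ?_
    refine (measure_biUnion_finset_le Zs _).trans ?_
    refine (Finset.sum_le_sum fun z _ => volume_cubez q hq z).trans ?_
    rw [Finset.sum_const, nsmul_eq_mul, ENNReal.ofReal_mul (by positivity)]
    simp
  have h3 := hwA.trans h2
  rw [ENNReal.ofReal_le_ofReal_iff (by positivity)] at h3
  have h4 : w * q ^ m ≤ ((Zs.card : ℝ) * (1 / q) ^ m) * q ^ m :=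
    mul_le_mul_of_nonneg_right h3 (by positivity)
  refine h4.trans (le_of_eq ?_)
  rw [mul_assoc, ← mul_pow, one_div_mul_cancel hq.ne', one_pow, mul_one]

end Vale.Agent.P127
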