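import Vale.Agent.P127.StDefs
import Vale.Agent.P127.Stk.Main
import Vale.Agent.P127.Stk.ExtHF
import Vale.Agent.P127.Stk.Final2

/-!
# P127: sticky Kakeya sets, the final theorems
-/

namespace Vale.Agent.P127.St

open MeasureTheory Vale.Agent.P127

theorem nearSticky (n : ℕ) (hn : 2 ≤ n) (ε : ℝ) (hε : 0 < ε) : ∃ η : ℝ, 0 < η ∧
    ∀ K : Set (EuclideanSpace ℝ (Fin n)), HasSegments volume ((n : ℝ) - 1 + η) K →
      ENNReal.ofReal ((n : ℝ) - ε) ≤ dimH K := by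
  obtain ⟨η, hη, h⟩ := Stk.nearStickyD_of hn (Stk.hausNorm_of (Stk.LB_main Stk.GrP (n - 1))) ε hε
  refine ⟨η, hη, fun K hK => ?_⟩
  obtain ⟨D, a, hD, hpos, ha, hp⟩ := hK
  refine h K (Subtype.val ⁻¹' D) (fun e => a e.1) hpos (fun e he => ha e.1 he) ?_
  refine le_trans (le_of_eq ?_) hp
  have e1 : ((fun e : Metric.sphere (0 : EuclideanSpace ℝ (Fin n)) 1 =>
      Stk.toLine (a e.1) e.1) '' (Subtype.val ⁻¹' D)) = lines D a := by
    ext p
    constructor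
    · rintro ⟨e, he, rfl⟩
      exact ⟨e.1, he, rfl⟩
    · rintro ⟨e, he, rfl⟩
      exact ⟨⟨e, hD he⟩, he, rfl⟩
  rw [e1]
  rfl

theorem sticky (n : ℕ) (hn : 2 ≤ n) (K : Set (EuclideanSpace ℝ (Fin n)))
    (hK : IsStickyKakeya n K) : dimH K = n := by
  obtain ⟨a, ha, hp⟩ := hK
  refine Stk.dimH_of_LB (Stk.LB_main Stk.GrP) n hn K ⟨a, fun e he t ht => ha e (by simpa using he)
    t ht, ?_⟩
  refine le_trans (le_of_eq ?_) hp
  have e1 : {p | ∃ e : EuclideanSpace ℝ (Fin n), ‖e‖ = 1 ∧ p = Stk.toLine (a e) e} =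
      lines (Metric.sphere 0 1) a := by
    ext p
    constructor
    · rintro ⟨e, he, rfl⟩
      exact ⟨e, by simpa using he, rfl⟩
    · rintro ⟨e, he, rfl⟩
      exact ⟨e, by simpa using he, rfl⟩
  rw [e1]
  rfl

end Vale.Agent.P127.St
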